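import Vale.Agent.P226h14.Fixed

/-!
# Flux contradiction for the Gaussian propeller (shared definitions)

Setting. `e` is a unit vector, `τ : Fin 4 → E` four vectors orthogonal to `e` with sum zero and
pairwise negative inner products, `H : Fin 4 → ℝ` nonnegative weights and `s > 0` the norm of the
smallest vertex.  `Cset e τ H s` is the cone of points `x` with
`⟪τ i, x⟫ ≤ H i * s * ⟪e, x⟫` for all `i`.
-/

open MeasureTheory ProbabilityTheory Real Set Filter Topology
open scoped RealInnerProductSpace ENNReal NNReal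

namespace Vale.Agent.P226h4

open Vale.Agent.P226h14

variable {E : Type*} [NormedAddCommGroup E] [InnerProductSpace ℝ E]

/-- the cone containing the cell of the smallest vertex -/
def Cset (e : E) (τ : Fin 4 → E) (H : Fin 4 → ℝ) (s : ℝ) : Set E :=
  {x | ∀ i, ⟪τ i, x⟫ ≤ H i * s * ⟪e, x⟫}

/-- the integrand of `Jhat` -/
noncomputable def PhiJ (A B C r ξ : ℝ) : ℝ :=
  max r 0 * (max (A * r + B * ξ) 0) ^ 2 * (if B * ξ ≤ C * r then 1 else 0)

/-- `Jhat A B C = E[r₊ (A r + B ξ)₊² 1{B ξ ≤ C r}]` for independent standard Gaussians `r, ξ`. -/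
noncomputable def Jhat (A B C : ℝ) : ℝ :=
  ∫ r, ∫ ξ, PhiJ A B C r ξ ∂(gaussianReal 0 1) ∂(gaussianReal 0 1)

end Vale.Agent.P226h4

namespace Vale.Agent.P226h4

open Vale.Agent.P226h14

variable {E : Type*} [NormedAddCommGroup E] [InnerProductSpace ℝ E]
variable {ι : Type*} [Fintype ι]

/-- the unit vector along the smallest vertex -/
noncomputable def eDir (w : ι → E) (i0 : ι) : E := ‖w i0‖⁻¹ • w i0

/-- the weight of vertex `l` along the smallest vertex: `w l = t l - (b l * ‖w i0‖) • e` -/
noncomputable def bW (w : ι → E) (i0 l : ι) : ℝ := -⟪w l, eDir w i0⟫ / ‖w i0‖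

/-- the component of vertex `l` orthogonal to the smallest vertex -/
noncomputable def tW (w : ι → E) (i0 l : ι) : E := w l + (bW w i0 l * ‖w i0‖) • eDir w i0

variable [LinearOrder ι]

/-- lumped vectors -/
noncomputable def tauL (w : ι → E) (i0 : ι) (g : {l // l ≠ i0} → Fin 4) (i : Fin 4) : E :=
  ∑ l with g l = i, tW w i0 l.1

/-- lumped weights -/
noncomputable def HL (w : ι → E) (i0 : ι) (g : {l // l ≠ i0} → Fin 4) (i : Fin 4) : ℝ :=
  ∑ l with g l = i, (1 + bW w i0 l.1)

end Vale.Agent.P226h4
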