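import Vale.Agent.P226h4.JV

/-! The exact value of `Jhat`: the substitution `ξ = r w`, Fubini, the radial integral and an
explicit antiderivative. -/

open MeasureTheory ProbabilityTheory Real Set Filter Topology
open scoped RealInnerProductSpace ENNReal NNReal

namespace Vale.Agent.P226h4

open Vale.Agent.P226h14

/-- the angular profile -/
noncomputable def PsiJ (A B C w : ℝ) : ℝ :=
  (max (A + B * w) 0) ^ 2 * (if B * w ≤ C then 1 else 0)

lemma PhiJ_scale (A B C w : ℝ) {r : ℝ} (hr : 0 < r) :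
    PhiJ A B C r (r * w) = r ^ 3 * PsiJ A B C w := by
  unfold PhiJ PsiJ
  have h1 : A * r + B * (r * w) = r * (A + B * w) := by ring
  rw [h1, max_eq_left hr.le]
  have h2 : max (r * (A + B * w)) 0 = r * max (A + B * w) 0 := by
    rw [mul_max_of_nonneg _ _ hr.le, mul_zero]
  rw [h2]
  have h3 : (B * (r * w) ≤ C * r) ↔ (B * w ≤ C) := by
    have e : B * (r * w) = (B * w) * r := by ring
    rw [e]
    exact mul_le_mul_iff_left₀ hr
  simp only [h3]
  ring

lemma ph_mul_pos_continuous : Continuous ph := by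
  unfold ph
  fun_prop

/-- the inner integral after the substitution `ξ = r w` -/
lemma inner_scale (A B C : ℝ) {r : ℝ} (hr : 0 < r) :
    ∫ ξ, PhiJ A B C r ξ ∂(gaussianReal 0 1) = r ^ 4 * ∫ w, ph (r * w) * PsiJ A B C w := by
  have h0 := setIntegral_gaussian MeasurableSet.univ (fun ξ => PhiJ A B C r ξ)
  simp only [Measure.restrict_univ] at h0
  rw [h0]
  have h1 := Measure.integral_comp_mul_left (fun ξ => ph ξ * PhiJ A B C r ξ) r
  have h2 : ∫ ξ, ph ξ * PhiJ A B C r ξ = r * ∫ w, ph (r * w) * PhiJ A B C r (r * w) := by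
    rw [h1, abs_of_pos (inv_pos.2 hr), smul_eq_mul]
    field_simp
  rw [h2]
  have h3 : ∀ w, ph (r * w) * PhiJ A B C r (r * w) = r ^ 3 * (ph (r * w) * PsiJ A B C w) := by
    intro w
    rw [PhiJ_scale A B C w hr]
    ring
  simp_rw [h3]
  rw [integral_const_mul]
  ring

/-- the profile lives on a compact interval -/
lemma PsiJ_eq_indicator (A B C w : ℝ) (hB : 0 < B) :
    PsiJ A B C w = (Icc (-A / B) (C / B)).indicator (fun w => (A + B * w) ^ 2) w := by
  unfold PsiJ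
  by_cases h : w ∈ Icc (-A / B) (C / B)
  · rw [indicator_of_mem h]
    have h1 : B * w ≤ C := by
      have := h.2
      rw [le_div_iff₀ hB] at this
      linarith
    have h2 : 0 ≤ A + B * w := by
      have := h.1
      rw [div_le_iff₀ hB] at this
      linarith
    rw [if_pos h1, max_eq_left h2, mul_one]
  · rw [indicator_of_notMem h]
    by_cases h1 : B * w ≤ C
    · have h2 : ¬ (-A / B ≤ w) := by
        intro h3
        exact h ⟨h3, by rw [le_div_iff₀ hB]; linarith⟩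
      have h3 : w < -A / B := not_le.1 h2
      rw [lt_div_iff₀ hB] at h3
      have h4 : A + B * w ≤ 0 := by linarith
      rw [max_eq_right h4]
      ring
    · rw [if_neg h1]
      ring

lemma measurable_PsiJ (A B C : ℝ) : Measurable (PsiJ A B C) := by
  unfold PsiJ
  apply Measurable.mul
  · refine Measurable.pow_const ?_ 2
    exact (measurable_const.add (measurable_id.const_mul B)).max measurable_const
  · apply Measurable.ite
    · exact measurableSet_le (measurable_id.const_mul B) measurable_const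
    · exact measurable_const
    · exact measurable_const

lemma PsiJ_nonneg (A B C w : ℝ) : 0 ≤ PsiJ A B C w := by
  unfold PsiJ
  have h3 : (0 : ℝ) ≤ if B * w ≤ C then 1 else 0 := by
    split_ifs <;> norm_num
  positivity

lemma integrable_PsiJ (A B C : ℝ) (hB : 0 < B) : Integrable (PsiJ A B C) := by
  have h : PsiJ A B C = (Icc (-A / B) (C / B)).indicator (fun w => (A + B * w) ^ 2) := by
    funext w
    exact PsiJ_eq_indicator A B C w hB
  rw [h, integrable_indicator_iff measurableSet_Icc]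
  exact (Continuous.continuousOn (by fun_prop)).integrableOn_compact isCompact_Icc

/-- the radial weight is integrable -/
lemma integrableOn_ph_pow : IntegrableOn (fun r : ℝ => ph r * r ^ 4) (Ioi 0) := by
  have h := integrableOn_rpow_mul_exp_neg_mul_rpow (p := 2) (s := 4) (b := 1 / 2)
    (by norm_num) (by norm_num) (by norm_num)
  have h2 := h.const_mul (√(2 * π))⁻¹
  have h3 : IntegrableOn (fun x : ℝ => (√(2 * π))⁻¹ * (x ^ (4 : ℝ) * rexp (-(1 / 2) * x ^ (2 : ℝ))))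
      (Ioi 0) := h2
  refine h3.congr_fun ?_ measurableSet_Ioi
  intro r _
  simp only
  unfold ph
  have e1 : r ^ (4 : ℝ) = r ^ 4 := by
    rw [← Real.rpow_natCast]
    norm_num
  have e2 : r ^ (2 : ℝ) = r ^ 2 := by
    rw [← Real.rpow_natCast]
    norm_num
  rw [e1, e2]
  have e3 : -(1 / 2 : ℝ) * r ^ 2 = -r ^ 2 / 2 := by ring
  rw [e3]
  ring

/-- the double integral is absolutely convergent -/
lemma integrable_kernel (A B C : ℝ) (hB : 0 < B) :
    Integrable (Function.uncurry fun r w : ℝ => (ph r * r ^ 4) * (ph (r * w) * PsiJ A B C w))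
      ((volume.restrict (Ioi (0 : ℝ))).prod volume) := by
  have hb : Integrable (fun p : ℝ × ℝ => (ph p.1 * p.1 ^ 4) * PsiJ A B C p.2)
      ((volume.restrict (Ioi (0 : ℝ))).prod volume) :=
    integrableOn_ph_pow.mul_prod (integrable_PsiJ A B C hB)
  refine (hb.const_mul (ph 0)).mono' ?_ ?_
  · have hc := ph_mul_pos_continuous
    have hm1 : Measurable fun p : ℝ × ℝ => ph p.1 * p.1 ^ 4 :=
      (hc.measurable.comp measurable_fst).mul (measurable_fst.pow_const 4)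
    have hm2 : Measurable fun p : ℝ × ℝ => ph (p.1 * p.2) :=
      hc.measurable.comp (measurable_fst.mul measurable_snd)
    have hm3 : Measurable fun p : ℝ × ℝ => PsiJ A B C p.2 :=
      (measurable_PsiJ A B C).comp measurable_snd
    exact (hm1.mul (hm2.mul hm3)).aestronglyMeasurable
  · filter_upwards with p
    obtain ⟨r, w⟩ := p
    simp only [Function.uncurry]
    have h1 := ph_pos r
    have h2 := ph_pos (r * w)
    have h3 := PsiJ_nonneg A B C w
    rw [Real.norm_eq_abs, abs_of_nonneg (by positivity)]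
    have h4 := ph_le_ph_zero (r * w)
    have h5 : 0 ≤ (ph r * r ^ 4) * PsiJ A B C w := by positivity
    calc ph r * r ^ 4 * (ph (r * w) * PsiJ A B C w)
        = ph (r * w) * ((ph r * r ^ 4) * PsiJ A B C w) := by ring
      _ ≤ ph 0 * ((ph r * r ^ 4) * PsiJ A B C w) := mul_le_mul_of_nonneg_right h4 h5

/-- the radial integral -/
lemma radial_integral (w : ℝ) :
    ∫ r in Ioi (0 : ℝ), ph r * r ^ 4 * ph (r * w) =
      (√(2 * π))⁻¹ ^ 2 * Vale.Agent.P226h15.TT 4 * ((√(1 + w ^ 2)) ^ 5)⁻¹ := by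
  set R : ℝ := √(1 + w ^ 2) with hR
  have hR2 : R ^ 2 = 1 + w ^ 2 := Real.sq_sqrt (by positivity)
  have hR0 : 0 < R := Real.sqrt_pos.2 (by positivity)
  have h1 := integral_comp_mul_left_Ioi (fun x : ℝ => x ^ 4 * rexp (-(1 / 2) * x ^ 2) * (R ^ 4)⁻¹)
    0 hR0
  have e0 : (R * 0) = 0 := by ring
  rw [e0] at h1
  have e : ∀ r : ℝ, ph r * r ^ 4 * ph (r * w) = (√(2 * π))⁻¹ ^ 2 *
      ((R * r) ^ 4 * rexp (-(1 / 2) * (R * r) ^ 2) * (R ^ 4)⁻¹) := by
    intro r
    unfold ph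
    have e2 : rexp (-r ^ 2 / 2) * rexp (-(r * w) ^ 2 / 2) = rexp (-(1 / 2) * (R * r) ^ 2) := by
      rw [← Real.exp_add]
      congr 1
      have e5 : (R * r) ^ 2 = (1 + w ^ 2) * r ^ 2 := by
        rw [mul_pow, hR2]
      rw [e5]
      ring
    have e3 : (R * r) ^ 4 * (R ^ 4)⁻¹ = r ^ 4 := by
      rw [mul_pow]
      field_simp
    calc (√(2 * π))⁻¹ * rexp (-r ^ 2 / 2) * r ^ 4 * ((√(2 * π))⁻¹ * rexp (-(r * w) ^ 2 / 2))
        = (√(2 * π))⁻¹ ^ 2 * ((rexp (-r ^ 2 / 2) * rexp (-(r * w) ^ 2 / 2)) * r ^ 4) := by ring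
      _ = (√(2 * π))⁻¹ ^ 2 * (rexp (-(1 / 2) * (R * r) ^ 2) * ((R * r) ^ 4 * (R ^ 4)⁻¹)) := by
          rw [e2, e3]
      _ = _ := by ring
  simp_rw [e]
  rw [integral_const_mul, h1, smul_eq_mul, integral_mul_const]
  unfold Vale.Agent.P226h15.TT
  have : (R ^ 5)⁻¹ = R⁻¹ * (R ^ 4)⁻¹ := by
    field_simp
  rw [this]
  ring

/-- the constant: `(2 π)^{-1/2} T₄ = 3/2` -/
lemma TT_four_const : (√(2 * π))⁻¹ * Vale.Agent.P226h15.TT 4 = 3 / 2 := by
  have h2 : Vale.Agent.P226h15.TT 4 = 3 * Vale.Agent.P226h15.TT 0 := by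
    have h1 := Vale.Agent.P226h15.TT_add_two 2
    have h0 := Vale.Agent.P226h15.TT_add_two 0
    norm_num at h1 h0
    rw [h1, h0]
  rw [h2, Vale.Agent.P226h15.TT_eq 0]
  have hG : Gamma (((0 : ℕ) + 1 : ℝ) / 2) = √π := by
    have := Real.Gamma_one_half_eq
    norm_num
    exact this
  rw [hG]
  have hp : (0 : ℝ) < π := Real.pi_pos
  have hrp : (1 / 2 : ℝ) ^ (-((0 : ℕ) + 1 : ℝ) / 2) = √2 := by
    have : -(((0 : ℕ) : ℝ) + 1) / 2 = -(1 / 2 : ℝ) := by norm_num
    rw [this, Real.rpow_neg (by norm_num), ← Real.inv_rpow (by norm_num),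
      Real.sqrt_eq_rpow]
    norm_num
  rw [hrp]
  have hs : √(2 * π) = √2 * √π := Real.sqrt_mul (by norm_num) π
  rw [hs]
  have h2p : √2 ≠ 0 := by positivity
  have hpp : √π ≠ 0 := by positivity
  field_simp

lemma ph_zero_eq : ph 0 = (√(2 * π))⁻¹ := by
  unfold ph
  simp

/-- the antiderivative of `(A + B w)² (1 + w²)^{-5/2}` -/
noncomputable def PJ (A B w : ℝ) : ℝ :=
  A ^ 2 * (w / √(1 + w ^ 2) - w ^ 3 / (3 * √(1 + w ^ 2) ^ 3)) - 2 * A * B / (3 * √(1 + w ^ 2) ^ 3) +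
    B ^ 2 * w ^ 3 / (3 * √(1 + w ^ 2) ^ 3)

lemma hasDerivAt_PJ (A B w : ℝ) :
    HasDerivAt (PJ A B) ((A + B * w) ^ 2 * ((√(1 + w ^ 2)) ^ 5)⁻¹) w := by
  set R : ℝ := √(1 + w ^ 2) with hR
  have hR2 : R ^ 2 = 1 + w ^ 2 := Real.sq_sqrt (by positivity)
  have hR0 : 0 < R := Real.sqrt_pos.2 (by positivity)
  have hRd : HasDerivAt (fun w : ℝ => √(1 + w ^ 2)) (w / R) w := by
    have h1 : HasDerivAt (fun w : ℝ => 1 + w ^ 2) (2 * w) w := by
      have := ((hasDerivAt_id w).pow 2).const_add 1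
      refine this.congr_deriv ?_
      simp
    have h2 := h1.sqrt (by positivity)
    refine h2.congr_deriv ?_
    rw [← hR]
    field_simp
  have hne : R ≠ 0 := hR0.ne'
  have d1 : HasDerivAt (fun w : ℝ => w / √(1 + w ^ 2)) ((1 * R - w * (w / R)) / R ^ 2) w :=
    (hasDerivAt_id w).div hRd hne
  have d2 : HasDerivAt (fun w : ℝ => w ^ 3 / (3 * √(1 + w ^ 2) ^ 3))
      ((3 * w ^ 2 * (3 * R ^ 3) - w ^ 3 * (3 * (3 * R ^ 2 * (w / R)))) / (3 * R ^ 3) ^ 2) w := by
    have hn : HasDerivAt (fun w : ℝ => w ^ 3) (3 * w ^ 2) w := by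
      have := (hasDerivAt_id w).pow 3
      refine this.congr_deriv ?_
      simp
    have hd : HasDerivAt (fun w : ℝ => 3 * √(1 + w ^ 2) ^ 3) (3 * (3 * R ^ 2 * (w / R))) w := by
      have := (hRd.pow 3).const_mul 3
      refine this.congr_deriv ?_
      rw [← hR]
      norm_num
    exact hn.div hd (by positivity)
  have d3 : HasDerivAt (fun w : ℝ => 2 * A * B / (3 * √(1 + w ^ 2) ^ 3))
      ((0 * (3 * R ^ 3) - (2 * A * B) * (3 * (3 * R ^ 2 * (w / R)))) / (3 * R ^ 3) ^ 2) w := by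
    have hd : HasDerivAt (fun w : ℝ => 3 * √(1 + w ^ 2) ^ 3) (3 * (3 * R ^ 2 * (w / R))) w := by
      have := (hRd.pow 3).const_mul 3
      refine this.congr_deriv ?_
      rw [← hR]
      norm_num
    exact (hasDerivAt_const w (2 * A * B)).div hd (by positivity)
  have d4 : HasDerivAt (fun w : ℝ => B ^ 2 * w ^ 3 / (3 * √(1 + w ^ 2) ^ 3))
      (B ^ 2 * ((3 * w ^ 2 * (3 * R ^ 3) - w ^ 3 * (3 * (3 * R ^ 2 * (w / R)))) / (3 * R ^ 3) ^ 2)) w := by
    have := d2.const_mul (B ^ 2)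
    refine this.congr_of_eventuallyEq ?_
    filter_upwards with x
    ring
  have total := ((d1.sub d2).const_mul (A ^ 2)).sub d3 |>.add d4
  refine total.congr_deriv ?_
  have hw2 : w ^ 2 = R ^ 2 - 1 := by linarith
  have p1 : (1 * R - w * (w / R)) / R ^ 2 = (1 + w ^ 2) * (R ^ 5)⁻¹ := by
    rw [← hR2]
    field_simp
    rw [hw2]
    ring
  have p2 : (3 * w ^ 2 * (3 * R ^ 3) - w ^ 3 * (3 * (3 * R ^ 2 * (w / R)))) / (3 * R ^ 3) ^ 2 =
      w ^ 2 * (R ^ 5)⁻¹ := by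
    field_simp
    have h7 : R ^ 2 - w ^ 2 = 1 := by linarith
    rw [h7]
    ring
  have p3 : (0 * (3 * R ^ 3) - (2 * A * B) * (3 * (3 * R ^ 2 * (w / R)))) / (3 * R ^ 3) ^ 2 =
      -(2 * A * B * w) * (R ^ 5)⁻¹ := by
    field_simp
    ring
  rw [p1, p2, p3]
  ring

/-- `Jhat` as a one dimensional integral -/
lemma Jhat_eq_integral (A B C : ℝ) (hB : 0 < B) :
    Jhat A B C = ph 0 * (3 / 2) * ∫ w, PsiJ A B C w * ((√(1 + w ^ 2)) ^ 5)⁻¹ := by
  unfold Jhat
  have hoff : ∀ r : ℝ, r ∉ Ioi (0 : ℝ) → ∫ ξ, PhiJ A B C r ξ ∂(gaussianReal 0 1) = 0 := by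
    intro r hr
    have hr' : r ≤ 0 := not_lt.1 hr
    have h0 : ∀ ξ, PhiJ A B C r ξ = 0 := by
      intro ξ
      unfold PhiJ
      rw [max_eq_right hr']
      ring
    simp_rw [h0]
    simp
  rw [← setIntegral_eq_integral_of_forall_compl_eq_zero hoff,
    setIntegral_gaussian measurableSet_Ioi]
  have e1 : ∫ r in Ioi (0 : ℝ), ph r * ∫ ξ, PhiJ A B C r ξ ∂(gaussianReal 0 1) =
      ∫ r in Ioi (0 : ℝ), ∫ w, (ph r * r ^ 4) * (ph (r * w) * PsiJ A B C w) := by
    apply setIntegral_congr_fun measurableSet_Ioi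
    intro r hr
    simp only
    rw [inner_scale A B C hr, integral_const_mul]
    ring
  rw [e1, integral_integral_swap (integrable_kernel A B C hB)]
  have e2 : ∀ w, ∫ r in Ioi (0 : ℝ), (ph r * r ^ 4) * (ph (r * w) * PsiJ A B C w) =
      PsiJ A B C w * ((√(2 * π))⁻¹ ^ 2 * Vale.Agent.P226h15.TT 4 * ((√(1 + w ^ 2)) ^ 5)⁻¹) := by
    intro w
    rw [← radial_integral w, ← integral_const_mul]
    apply setIntegral_congr_fun measurableSet_Ioi
    intro r _
    simp only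
    ring
  simp_rw [e2]
  have e3 : (√(2 * π))⁻¹ ^ 2 * Vale.Agent.P226h15.TT 4 = ph 0 * (3 / 2) := by
    rw [ph_zero_eq, ← TT_four_const]
    ring
  simp_rw [e3]
  rw [← integral_const_mul]
  apply integral_congr_ae
  filter_upwards with w
  ring

/-- the integral by the antiderivative -/
lemma integral_PsiJ (A B C : ℝ) (hA : 0 ≤ A) (hC : 0 ≤ C) (hB : 0 < B) :
    ∫ w, PsiJ A B C w * ((√(1 + w ^ 2)) ^ 5)⁻¹ = PJ A B (C / B) - PJ A B (-A / B) := by
  have hle : -A / B ≤ C / B := by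
    apply div_le_div_of_nonneg_right _ hB.le
    linarith
  have e1 : ∀ w, PsiJ A B C w * ((√(1 + w ^ 2)) ^ 5)⁻¹ =
      (Icc (-A / B) (C / B)).indicator (fun w => (A + B * w) ^ 2 * ((√(1 + w ^ 2)) ^ 5)⁻¹) w := by
    intro w
    rw [PsiJ_eq_indicator A B C w hB]
    by_cases h : w ∈ Icc (-A / B) (C / B)
    · rw [indicator_of_mem h, indicator_of_mem h]
    · rw [indicator_of_notMem h, indicator_of_notMem h, zero_mul]
  simp_rw [e1]
  rw [integral_indicator measurableSet_Icc, integral_Icc_eq_integral_Ioc,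
    ← intervalIntegral.integral_of_le hle]
  apply intervalIntegral.integral_eq_sub_of_hasDerivAt (fun w _ => hasDerivAt_PJ A B w)
  apply Continuous.intervalIntegrable
  have hc : Continuous fun w : ℝ => √(1 + w ^ 2) := by fun_prop
  refine Continuous.mul (by fun_prop) (Continuous.inv₀ (hc.pow 5) ?_)
  intro w
  have : 0 < √(1 + w ^ 2) := Real.sqrt_pos.2 (by positivity)
  positivity

/-- the closed form -/
noncomputable def HH (A B C : ℝ) : ℝ :=
  2 / 3 * A * √(A ^ 2 + B ^ 2) +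
    (3 * A ^ 2 * B ^ 2 * C + 2 * A ^ 2 * C ^ 3 - 2 * A * B ^ 4 + B ^ 2 * C ^ 3) /
      (3 * √(B ^ 2 + C ^ 2) ^ 3)

lemma sqrt_one_add_div (C : ℝ) {B : ℝ} (hB : 0 < B) :
    √(1 + (C / B) ^ 2) = √(B ^ 2 + C ^ 2) / B := by
  have h : 1 + (C / B) ^ 2 = (B ^ 2 + C ^ 2) / B ^ 2 := by
    field_simp
  rw [h, Real.sqrt_div (by positivity), Real.sqrt_sq hB.le]

lemma PJ_diff (A B C : ℝ) (hB : 0 < B) :
    PJ A B (C / B) - PJ A B (-A / B) = HH A B C := by
  unfold PJ HH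
  have e1 : (-A / B) ^ 2 = (A / B) ^ 2 := by ring
  rw [e1, sqrt_one_add_div C hB, sqrt_one_add_div A hB]
  set RC : ℝ := √(B ^ 2 + C ^ 2) with hRC
  set RA : ℝ := √(A ^ 2 + B ^ 2) with hRA
  have e2 : √(B ^ 2 + A ^ 2) = RA := by
    rw [hRA, add_comm]
  rw [e2]
  have hRC2 : RC ^ 2 = B ^ 2 + C ^ 2 := Real.sq_sqrt (by positivity)
  have hRA2 : RA ^ 2 = A ^ 2 + B ^ 2 := Real.sq_sqrt (by positivity)
  have hRC0 : 0 < RC := Real.sqrt_pos.2 (by positivity)
  have hRA0 : 0 < RA := Real.sqrt_pos.2 (by positivity)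
  have pC : A ^ 2 * (C / B / (RC / B) - (C / B) ^ 3 / (3 * (RC / B) ^ 3)) -
      2 * A * B / (3 * (RC / B) ^ 3) + B ^ 2 * (C / B) ^ 3 / (3 * (RC / B) ^ 3) =
      (3 * A ^ 2 * B ^ 2 * C + 2 * A ^ 2 * C ^ 3 - 2 * A * B ^ 4 + B ^ 2 * C ^ 3) / (3 * RC ^ 3) := by
    field_simp
    rw [hRC2]
    ring
  have pA : A ^ 2 * (-A / B / (RA / B) - (-A / B) ^ 3 / (3 * (RA / B) ^ 3)) -
      2 * A * B / (3 * (RA / B) ^ 3) + B ^ 2 * (-A / B) ^ 3 / (3 * (RA / B) ^ 3) =
      -(2 / 3 * A * RA) := by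
    field_simp
    have h4 : RA ^ 4 = (A ^ 2 + B ^ 2) ^ 2 := by
      rw [← hRA2]
      ring
    rw [h4]
    nth_rewrite 1 [show RA ^ 2 = A ^ 2 + B ^ 2 from hRA2]
    ring
  rw [pC, pA]
  ring

/-- **The exact value of `Jhat`.** -/
theorem Jhat_closed (A B C : ℝ) (hA : 0 ≤ A) (hC : 0 ≤ C) (hB : 0 < B) :
    Jhat A B C = ph 0 * (3 / 2) * HH A B C := by
  rw [Jhat_eq_integral A B C hB, integral_PsiJ A B C hA hC hB, PJ_diff A B C hB]

/-- monotonicity of the integrand -/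
lemma PhiJ_mono {A A' C C' : ℝ} (B r ξ : ℝ) (hA : A ≤ A') (hC : C ≤ C') :
    PhiJ A B C r ξ ≤ PhiJ A' B C' r ξ := by
  unfold PhiJ
  rcases le_or_gt r 0 with hr | hr
  · rw [max_eq_right hr]
    simp
  · rw [max_eq_left hr.le]
    have h1 : max (A * r + B * ξ) 0 ≤ max (A' * r + B * ξ) 0 := by
      apply max_le_max _ le_rfl
      have : A * r ≤ A' * r := mul_le_mul_of_nonneg_right hA hr.le
      linarith
    have h2 : (max (A * r + B * ξ) 0) ^ 2 ≤ (max (A' * r + B * ξ) 0) ^ 2 :=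
      pow_le_pow_left₀ (le_max_right _ _) h1 2
    have h3 : (if B * ξ ≤ C * r then (1 : ℝ) else 0) ≤ if B * ξ ≤ C' * r then 1 else 0 := by
      by_cases h : B * ξ ≤ C * r
      · have : B * ξ ≤ C' * r := h.trans (mul_le_mul_of_nonneg_right hC hr.le)
        rw [if_pos h, if_pos this]
      · rw [if_neg h]
        split_ifs <;> norm_num
    have h30 : (0 : ℝ) ≤ if B * ξ ≤ C * r then 1 else 0 := by
      split_ifs <;> norm_num
    calc r * (max (A * r + B * ξ) 0) ^ 2 * (if B * ξ ≤ C * r then 1 else 0)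
        ≤ r * (max (A' * r + B * ξ) 0) ^ 2 * (if B * ξ ≤ C * r then 1 else 0) :=
          mul_le_mul_of_nonneg_right (mul_le_mul_of_nonneg_left h2 hr.le) h30
      _ ≤ r * (max (A' * r + B * ξ) 0) ^ 2 * (if B * ξ ≤ C' * r then 1 else 0) :=
          mul_le_mul_of_nonneg_left h3 (by positivity)

/-- `Jhat` is monotone in `A` and `C`. -/
lemma Jhat_mono {A A' C C' : ℝ} (B : ℝ) (hA : A ≤ A') (hC : C ≤ C') :
    Jhat A B C ≤ Jhat A' B C' := by
  rw [Jhat_eq_prod, Jhat_eq_prod]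
  exact integral_mono (integrable_PhiJ _ _ _) (integrable_PhiJ _ _ _)
    fun p => PhiJ_mono B p.1 p.2 hA hC

end Vale.Agent.P226h4
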