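import Vale.Agent.P226h4.JClosed

/-! Module J2: `Jhat (4 - a) B (1 + a) ≤ 11.8` on the range `B² ≥ 1 - a²`, from the closed form
of `Jhat` and an adaptive grid checked by the kernel. -/

open MeasureTheory ProbabilityTheory Real Set Filter Topology
open scoped RealInnerProductSpace ENNReal NNReal

namespace Vale.Agent.P226h4

open Vale.Agent.P226h14

/-- the check of one dyadic cell `a ∈ [i/2^p,(i+1)/2^p]`, `B ∈ [j/2^p,(j+1)/2^p]` -/
def leafJ (p i j : ℕ) : Bool :=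
  ((j + 1) ^ 2 + (i + 1) ^ 2 < (2 ^ p) ^ 2) ||
  (let D := 2 ^ p
   let A := 4 * D - i
   let C := D + i + 1
   let r := Nat.sqrt ((j ^ 2 + C ^ 2) * 2 ^ 16)
   let N := (3 * A ^ 2 * (j + 1) ^ 2 * C + 2 * A ^ 2 * C ^ 3 + (j + 1) ^ 2 * C ^ 3) - 2 * A * j ^ 4
   (0 < r) && (10 * ((2 * A ^ 2 + (j + 1) ^ 2) * r ^ 3 + N * 2 ^ 24) ≤ 591 * D ^ 2 * r ^ 3))

/-- the adaptive check -/
def chkJ : ℕ → ℕ → ℕ → ℕ → Bool
  | 0, p, i, j => leafJ p i j
  | f + 1, p, i, j => leafJ p i j ||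
      (chkJ f (p + 1) (2 * i) (2 * j) && chkJ f (p + 1) (2 * i + 1) (2 * j) &&
        chkJ f (p + 1) (2 * i) (2 * j + 1) && chkJ f (p + 1) (2 * i + 1) (2 * j + 1))

/-- the bound from the closed form on one cell -/
lemma HH_cell {D Ab Cb B0 B1 r N : ℝ} {A B C : ℝ} (hD : 0 < D) (hAb : 0 < Ab) (hCb : 0 < Cb)
    (hr : 0 < r) (hA : A = Ab / D) (hC : C = Cb / D)
    (hB0 : B0 / D ≤ B) (hB1 : B ≤ B1 / D) (hB : 0 < B) (hB00 : 0 ≤ B0)
    (hrsq : r ^ 2 ≤ (B0 ^ 2 + Cb ^ 2) * 2 ^ 16)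
    (hN0 : 0 ≤ N)
    (hN : 3 * Ab ^ 2 * B1 ^ 2 * Cb + 2 * Ab ^ 2 * Cb ^ 3 + B1 ^ 2 * Cb ^ 3 - 2 * Ab * B0 ^ 4 ≤ N)
    (hchk : 10 * ((2 * Ab ^ 2 + B1 ^ 2) * r ^ 3 + N * 2 ^ 24) ≤ 591 * D ^ 2 * r ^ 3) :
    HH A B C ≤ 197 / 10 := by
  unfold HH
  have hA0 : 0 < A := by rw [hA]; positivity
  have hC0 : 0 < C := by rw [hC]; positivity
  set RA : ℝ := √(A ^ 2 + B ^ 2) with hRA
  set RC : ℝ := √(B ^ 2 + C ^ 2) with hRC
  have hRA2 : RA ^ 2 = A ^ 2 + B ^ 2 := Real.sq_sqrt (by positivity)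
  have hRC2 : RC ^ 2 = B ^ 2 + C ^ 2 := Real.sq_sqrt (by positivity)
  have hRC0 : 0 < RC := Real.sqrt_pos.2 (by positivity)
  -- first term
  have h1 : 2 / 3 * A * RA ≤ 2 / 3 * A ^ 2 + B ^ 2 / 3 := by
    nlinarith [sq_nonneg (A - RA)]
  have hB1pos : 0 ≤ B1 := by
    have : 0 ≤ B1 / D := hB.le.trans hB1
    have h2 := mul_nonneg this hD.le
    rwa [div_mul_cancel₀ _ hD.ne'] at h2
  have hB2 : B ^ 2 ≤ (B1 / D) ^ 2 := pow_le_pow_left₀ hB.le hB1 2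
  have hB0D : 0 ≤ B0 / D := div_nonneg hB00 hD.le
  have hB4 : (B0 / D) ^ 4 ≤ B ^ 4 := pow_le_pow_left₀ hB0D hB0 4
  -- the numerator
  have hnum : 3 * A ^ 2 * B ^ 2 * C + 2 * A ^ 2 * C ^ 3 - 2 * A * B ^ 4 + B ^ 2 * C ^ 3 ≤ N / D ^ 5 := by
    have e1 : 3 * A ^ 2 * B ^ 2 * C ≤ 3 * A ^ 2 * (B1 / D) ^ 2 * C := by
      have : 0 ≤ 3 * A ^ 2 * C := by positivity
      nlinarith
    have e2 : B ^ 2 * C ^ 3 ≤ (B1 / D) ^ 2 * C ^ 3 := by
      have : 0 ≤ C ^ 3 := by positivity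
      nlinarith
    have e3 : 2 * A * (B0 / D) ^ 4 ≤ 2 * A * B ^ 4 := by
      have : 0 ≤ 2 * A := by positivity
      nlinarith
    have e4 : 3 * A ^ 2 * (B1 / D) ^ 2 * C + 2 * A ^ 2 * C ^ 3 - 2 * A * (B0 / D) ^ 4 +
        (B1 / D) ^ 2 * C ^ 3 ≤ N / D ^ 5 := by
      rw [le_div_iff₀ (by positivity)]
      have e5 : (3 * A ^ 2 * (B1 / D) ^ 2 * C + 2 * A ^ 2 * C ^ 3 - 2 * A * (B0 / D) ^ 4 +
          (B1 / D) ^ 2 * C ^ 3) * D ^ 5 =
          3 * Ab ^ 2 * B1 ^ 2 * Cb + 2 * Ab ^ 2 * Cb ^ 3 + B1 ^ 2 * Cb ^ 3 - 2 * Ab * B0 ^ 4 := by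
        rw [hA, hC]
        field_simp
        ring
      rw [e5]
      exact hN
    linarith
  -- the denominator
  have hrho : r / (256 * D) ≤ RC := by
    apply Real.le_sqrt_of_sq_le
    have e6 : (r / (256 * D)) ^ 2 = r ^ 2 / (2 ^ 16 * D ^ 2) := by
      field_simp
      norm_num
    rw [e6, div_le_iff₀ (by positivity)]
    have e7 : (B ^ 2 + C ^ 2) * (2 ^ 16 * D ^ 2) = (B ^ 2 * D ^ 2 + Cb ^ 2) * 2 ^ 16 := by
      rw [hC]
      field_simp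
    rw [e7]
    have e8 : B0 ^ 2 ≤ B ^ 2 * D ^ 2 := by
      have : B0 / D * D ≤ B * D := mul_le_mul_of_nonneg_right hB0 hD.le
      rw [div_mul_cancel₀ _ hD.ne'] at this
      have h3 := pow_le_pow_left₀ hB00 this 2
      have h4 : (B * D) ^ 2 = B ^ 2 * D ^ 2 := by ring
      linarith
    have e9 : (B0 ^ 2 + Cb ^ 2) * 2 ^ 16 ≤ (B ^ 2 * D ^ 2 + Cb ^ 2) * 2 ^ 16 :=
      mul_le_mul_of_nonneg_right (by linarith) (by norm_num)
    linarith
  have hrho0 : 0 < r / (256 * D) := by positivity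
  have hR3 : (r / (256 * D)) ^ 3 ≤ RC ^ 3 := pow_le_pow_left₀ hrho0.le hrho 3
  have h2 : (3 * A ^ 2 * B ^ 2 * C + 2 * A ^ 2 * C ^ 3 - 2 * A * B ^ 4 + B ^ 2 * C ^ 3) / (3 * RC ^ 3) ≤
      (N / D ^ 5) / (3 * (r / (256 * D)) ^ 3) := by
    have h3 : (3 * A ^ 2 * B ^ 2 * C + 2 * A ^ 2 * C ^ 3 - 2 * A * B ^ 4 + B ^ 2 * C ^ 3) / (3 * RC ^ 3) ≤
        (N / D ^ 5) / (3 * RC ^ 3) :=
      div_le_div_of_nonneg_right hnum (by positivity)
    refine h3.trans ?_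
    apply div_le_div_of_nonneg_left (by positivity) (by positivity)
    linarith
  -- conclusion
  have h4 : 2 / 3 * A ^ 2 + B ^ 2 / 3 ≤ 2 / 3 * (Ab / D) ^ 2 + (B1 / D) ^ 2 / 3 := by
    rw [← hA]
    linarith
  have h5 : 2 / 3 * (Ab / D) ^ 2 + (B1 / D) ^ 2 / 3 + (N / D ^ 5) / (3 * (r / (256 * D)) ^ 3) ≤ 197 / 10 := by
    have e9 : 2 / 3 * (Ab / D) ^ 2 + (B1 / D) ^ 2 / 3 + (N / D ^ 5) / (3 * (r / (256 * D)) ^ 3) =
        ((2 * Ab ^ 2 + B1 ^ 2) * r ^ 3 + N * 2 ^ 24) / (3 * D ^ 2 * r ^ 3) := by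
      field_simp
      norm_num
      ring
    rw [e9, div_le_iff₀ (by positivity)]
    linarith
  linarith

lemma ph_zero_le : ph 0 ≤ 39895 / 100000 := by
  rw [ph_zero_eq]
  rw [inv_le_comm₀ (by positivity) (by norm_num)]
  apply Real.le_sqrt_of_sq_le
  have := Real.pi_gt_d4
  norm_num
  linarith

/-- soundness of one cell -/
lemma leafJ_sound {p i j : ℕ} (h : leafJ p i j = true) (hi : i + 1 ≤ 2 ^ p) {a B : ℝ}
    (ha : (i : ℝ) / 2 ^ p ≤ a) (ha2 : a ≤ ((i : ℝ) + 1) / 2 ^ p) (hB0 : (j : ℝ) / 2 ^ p ≤ B)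
    (hB1 : B ≤ ((j : ℝ) + 1) / 2 ^ p) (hB : 0 < B) (hab : 1 - a ^ 2 ≤ B ^ 2) :
    Jhat (4 - a) B (1 + a) ≤ 118 / 10 := by
  have hD : (0 : ℝ) < 2 ^ p := by positivity
  have ha0 : 0 ≤ a := le_trans (by positivity) ha
  unfold leafJ at h
  simp only [Bool.or_eq_true, decide_eq_true_eq, Bool.and_eq_true] at h
  rcases h with h | ⟨hr0, hchk⟩
  · exfalso
    have hcast : (((j : ℝ) + 1) ^ 2 + ((i : ℝ) + 1) ^ 2) < ((2 : ℝ) ^ p) ^ 2 := by
      exact_mod_cast h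
    have h2 : B ^ 2 ≤ (((j : ℝ) + 1) / 2 ^ p) ^ 2 := pow_le_pow_left₀ hB.le hB1 2
    have h3 : a ^ 2 ≤ (((i : ℝ) + 1) / 2 ^ p) ^ 2 := pow_le_pow_left₀ ha0 ha2 2
    have h4 : (((j : ℝ) + 1) / 2 ^ p) ^ 2 + (((i : ℝ) + 1) / 2 ^ p) ^ 2 < 1 := by
      rw [div_pow, div_pow, ← add_div, div_lt_one (by positivity)]
      exact hcast
    linarith
  · set D : ℕ := 2 ^ p with hDdef
    have hiD : i ≤ 4 * D := by omega
    set A : ℕ := 4 * D - i with hAdef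
    set C : ℕ := D + i + 1 with hCdef
    set r : ℕ := Nat.sqrt ((j ^ 2 + C ^ 2) * 2 ^ 16) with hrdef
    set P : ℕ := 3 * A ^ 2 * (j + 1) ^ 2 * C + 2 * A ^ 2 * C ^ 3 + (j + 1) ^ 2 * C ^ 3 with hPdef
    set M : ℕ := 2 * A * j ^ 4 with hMdef
    have hDr : ((D : ℕ) : ℝ) = 2 ^ p := by
      rw [hDdef]
      push_cast
      rfl
    have hAr : ((A : ℕ) : ℝ) = 4 * 2 ^ p - i := by
      rw [hAdef, Nat.cast_sub hiD]
      push_cast
      rw [hDr]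
    have hCr : ((C : ℕ) : ℝ) = 2 ^ p + i + 1 := by
      rw [hCdef]
      push_cast
      rw [hDr]
    have hAp : (0 : ℝ) < (A : ℝ) := by
      have h1 : ((i : ℝ) + 1) ≤ 2 ^ p := by exact_mod_cast hi
      rw [hAr]
      linarith
    have hCp : (0 : ℝ) < (C : ℝ) := by
      rw [hCr]
      positivity
    have hrp : (0 : ℝ) < (r : ℝ) := by exact_mod_cast hr0
    have hsq : ((r : ℝ)) ^ 2 ≤ (((j : ℝ)) ^ 2 + (C : ℝ) ^ 2) * 2 ^ 16 := by
      have := Nat.sqrt_le' ((j ^ 2 + C ^ 2) * 2 ^ 16)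
      exact_mod_cast this
    have hNle : ((P : ℝ)) - M ≤ ((P - M : ℕ) : ℝ) := by
      have h1 : P ≤ (P - M) + M := le_tsub_add
      have h2 : (P : ℝ) ≤ ((P - M : ℕ) : ℝ) + M := by exact_mod_cast h1
      linarith
    have hchk' : 10 * ((2 * (A : ℝ) ^ 2 + ((j : ℝ) + 1) ^ 2) * (r : ℝ) ^ 3 + ((P - M : ℕ) : ℝ) * 2 ^ 24) ≤
        591 * ((D : ℕ) : ℝ) ^ 2 * (r : ℝ) ^ 3 := by
      exact_mod_cast hchk
    rw [hDr] at hchk'
    have hH : HH ((A : ℝ) / 2 ^ p) B ((C : ℝ) / 2 ^ p) ≤ 197 / 10 := by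
      refine HH_cell (D := 2 ^ p) (Ab := A) (Cb := C) (B0 := j) (B1 := (j : ℝ) + 1) (r := r)
        (N := ((P - M : ℕ) : ℝ)) hD hAp hCp hrp rfl rfl hB0 hB1 hB (by positivity) hsq
        (by positivity) ?_ hchk'
      have e : ((P : ℝ)) - M = 3 * (A : ℝ) ^ 2 * ((j : ℝ) + 1) ^ 2 * C + 2 * (A : ℝ) ^ 2 * (C : ℝ) ^ 3 +
          ((j : ℝ) + 1) ^ 2 * (C : ℝ) ^ 3 - 2 * (A : ℝ) * (j : ℝ) ^ 4 := by
        rw [hPdef, hMdef]
        push_cast
        ring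
      rw [← e]
      exact hNle
    have hA1 : 4 - a ≤ (A : ℝ) / 2 ^ p := by
      rw [hAr]
      have : (4 * 2 ^ p - (i : ℝ)) / 2 ^ p = 4 - i / 2 ^ p := by
        field_simp
      rw [this]
      linarith
    have hC1 : 1 + a ≤ (C : ℝ) / 2 ^ p := by
      rw [hCr]
      have : ((2 : ℝ) ^ p + i + 1) / 2 ^ p = 1 + ((i : ℝ) + 1) / 2 ^ p := by
        field_simp
        ring
      rw [this]
      linarith
    have hmono := Jhat_mono B hA1 hC1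
    have hclosed := Jhat_closed ((A : ℝ) / 2 ^ p) B ((C : ℝ) / 2 ^ p) (by positivity) (by positivity) hB
    have hph := ph_zero_le
    have hph0 := ph_pos 0
    have hfin : ph 0 * (3 / 2) * HH ((A : ℝ) / 2 ^ p) B ((C : ℝ) / 2 ^ p) ≤ 118 / 10 := by
      have h1 : ph 0 * (3 / 2) * HH ((A : ℝ) / 2 ^ p) B ((C : ℝ) / 2 ^ p) ≤ ph 0 * (3 / 2) * (197 / 10) :=
        mul_le_mul_of_nonneg_left hH (by positivity)
      have h2 : ph 0 * (3 / 2) * (197 / 10) ≤ 39895 / 100000 * (3 / 2) * (197 / 10) := by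
        apply mul_le_mul_of_nonneg_right _ (by norm_num)
        apply mul_le_mul_of_nonneg_right hph (by norm_num)
      have h3 : (39895 / 100000 : ℝ) * (3 / 2) * (197 / 10) ≤ 118 / 10 := by norm_num
      linarith
    linarith

/-- soundness of the adaptive check -/
lemma chkJ_sound : ∀ (f p i j : ℕ), chkJ f p i j = true → i + 1 ≤ 2 ^ p → ∀ {a B : ℝ},
    (i : ℝ) / 2 ^ p ≤ a → a ≤ ((i : ℝ) + 1) / 2 ^ p → (j : ℝ) / 2 ^ p ≤ B →
    B ≤ ((j : ℝ) + 1) / 2 ^ p → 0 < B → 1 - a ^ 2 ≤ B ^ 2 →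
    Jhat (4 - a) B (1 + a) ≤ 118 / 10 := by
  intro f
  induction f with
  | zero =>
    intro p i j h hi a B ha ha2 hB0 hB1 hB hab
    exact leafJ_sound h hi ha ha2 hB0 hB1 hB hab
  | succ f ih =>
    intro p i j h hi a B ha ha2 hB0 hB1 hB hab
    unfold chkJ at h
    simp only [Bool.or_eq_true, Bool.and_eq_true] at h
    rcases h with h | ⟨⟨⟨h1, h2⟩, h3⟩, h4⟩
    · exact leafJ_sound h hi ha ha2 hB0 hB1 hB hab
    · have hD : (0 : ℝ) < 2 ^ p := by positivity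
      have hD2 : ((2 : ℝ) ^ (p + 1)) = 2 * 2 ^ p := by
        rw [pow_succ]
        ring
      have hi1 : 2 * i + 1 ≤ 2 ^ (p + 1) := by
        rw [pow_succ]
        omega
      have hi2 : 2 * i + 1 + 1 ≤ 2 ^ (p + 1) := by
        rw [pow_succ]
        omega
      -- the four children
      have ea0 : (((2 * i : ℕ) : ℝ)) / 2 ^ (p + 1) = (i : ℝ) / 2 ^ p := by
        rw [hD2]
        push_cast
        field_simp
      have ea1 : (((2 * i : ℕ) : ℝ) + 1) / 2 ^ (p + 1) = (((2 * i + 1 : ℕ) : ℝ)) / 2 ^ (p + 1) := by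
        push_cast
        rfl
      have ea2' : (((2 * i + 1 : ℕ) : ℝ) + 1) / 2 ^ (p + 1) = ((i : ℝ) + 1) / 2 ^ p := by
        rw [hD2]
        push_cast
        field_simp
        ring
      have eb0 : (((2 * j : ℕ) : ℝ)) / 2 ^ (p + 1) = (j : ℝ) / 2 ^ p := by
        rw [hD2]
        push_cast
        field_simp
      have eb1 : (((2 * j : ℕ) : ℝ) + 1) / 2 ^ (p + 1) = (((2 * j + 1 : ℕ) : ℝ)) / 2 ^ (p + 1) := by
        push_cast
        rfl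
      have eb2 : (((2 * j + 1 : ℕ) : ℝ) + 1) / 2 ^ (p + 1) = ((j : ℝ) + 1) / 2 ^ p := by
        rw [hD2]
        push_cast
        field_simp
        ring
      rcases le_total a (((2 * i + 1 : ℕ) : ℝ) / 2 ^ (p + 1)) with hamid | hamid
      · rcases le_total B (((2 * j + 1 : ℕ) : ℝ) / 2 ^ (p + 1)) with hBmid | hBmid
        · exact ih _ _ _ h1 hi1 (by rw [ea0]; exact ha) (by rw [ea1]; exact hamid)
            (by rw [eb0]; exact hB0) (by rw [eb1]; exact hBmid) hB hab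
        · exact ih _ _ _ h3 hi1 (by rw [ea0]; exact ha) (by rw [ea1]; exact hamid)
            hBmid (by rw [eb2]; exact hB1) hB hab
      · rcases le_total B (((2 * j + 1 : ℕ) : ℝ) / 2 ^ (p + 1)) with hBmid | hBmid
        · exact ih _ _ _ h2 hi2 hamid (by rw [ea2']; exact ha2)
            (by rw [eb0]; exact hB0) (by rw [eb1]; exact hBmid) hB hab
        · exact ih _ _ _ h4 hi2 hamid (by rw [ea2']; exact ha2)
            hBmid (by rw [eb2]; exact hB1) hB hab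

lemma chk_top0 : chkJ 10 0 0 0 = true := by decide +kernel
lemma chk_top1 : chkJ 10 0 0 1 = true := by decide +kernel
lemma chk_top2 : chkJ 10 0 0 2 = true := by decide +kernel

/-- **Module J2.** -/
theorem JBoundExact_holds : JBoundExact := by
  intro a B ha0 ha1 hB hab
  have key : Jhat (4 - a) B (1 + a) ≤ 118 / 10 := by
    have ha' : ((0 : ℕ) : ℝ) / 2 ^ 0 ≤ a := by simpa using ha0
    have ha2' : a ≤ (((0 : ℕ) : ℝ) + 1) / 2 ^ 0 := by simpa using ha1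
    rcases le_or_gt B 1 with h1 | h1
    · exact chkJ_sound 10 0 0 0 chk_top0 (by norm_num) ha' ha2' (by simpa using hB.le)
        (by simpa using h1) hB hab
    · rcases le_or_gt B 2 with h2 | h2
      · exact chkJ_sound 10 0 0 1 chk_top1 (by norm_num) ha' ha2' (by simpa using h1.le)
          (by norm_num; linarith) hB hab
      · rcases le_or_gt B 3 with h3 | h3
        · exact chkJ_sound 10 0 0 2 chk_top2 (by norm_num) ha' ha2' (by simpa using h2.le)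
            (by norm_num; linarith) hB hab
        · have hv := JBoundV_holds (4 - a) B (1 + a) (by linarith) (by linarith) hB
          have e : (4 - a + (1 + a)) = 5 := by ring
          rw [e] at hv
          have hph := ph_zero_le
          have hJ0 : 0 ≤ Jhat (4 - a) B (1 + a) := by
            unfold Jhat
            exact integral_nonneg fun r => integral_nonneg fun ξ => PhiJ_nonneg _ _ _ _ _
          have h4 : Jhat (4 - a) B (1 + a) * 3 ≤ Jhat (4 - a) B (1 + a) * B :=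
            mul_le_mul_of_nonneg_left h3.le hJ0
          have h5 : ph 0 * 5 ^ 3 / 2 ≤ 39895 / 100000 * 5 ^ 3 / 2 := by
            have := mul_le_mul_of_nonneg_right hph (show (0 : ℝ) ≤ 5 ^ 3 by norm_num)
            linarith
          norm_num at h5 ⊢
          linarith
  refine key.trans ?_
  norm_num

end Vale.Agent.P226h4
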