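import Vale.Agent.P226h4.Spec
import Vale.Agent.P226h15.Moments
import Vale.Agent.P226h14.OneDim

/-! Module J1: the elementary bound for `Jhat`, and the integrability of `PhiJ`. -/

open MeasureTheory ProbabilityTheory Real Set Filter Topology
open scoped RealInnerProductSpace ENNReal NNReal

namespace Vale.Agent.P226h4

open Vale.Agent.P226h14

lemma measurable_PhiJ (A B C : ℝ) : Measurable (fun p : ℝ × ℝ => PhiJ A B C p.1 p.2) := by
  unfold PhiJ
  apply Measurable.mul
  · apply Measurable.mul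
    · exact measurable_fst.max measurable_const
    · refine Measurable.pow_const ?_ 2
      exact ((measurable_fst.const_mul A).add (measurable_snd.const_mul B)).max measurable_const
  · apply Measurable.ite
    · exact measurableSet_le (measurable_snd.const_mul B) (measurable_fst.const_mul C)
    · exact measurable_const
    · exact measurable_const

lemma PhiJ_nonneg (A B C r ξ : ℝ) : 0 ≤ PhiJ A B C r ξ := by
  unfold PhiJ
  have h1 : 0 ≤ max r 0 := le_max_right _ _
  have h3 : (0 : ℝ) ≤ if B * ξ ≤ C * r then 1 else 0 := by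
    split_ifs <;> norm_num
  positivity

lemma PhiJ_le (A B C r ξ : ℝ) :
    PhiJ A B C r ξ ≤ A ^ 2 * (|r| ^ 3 * 1) + 2 * |A| * |B| * (|r| ^ 2 * |ξ|) + B ^ 2 * (|r| * |ξ| ^ 2) := by
  unfold PhiJ
  have h1 : max r 0 ≤ |r| := max_le (le_abs_self r) (abs_nonneg r)
  have h10 : 0 ≤ max r 0 := le_max_right _ _
  have h2 : max (A * r + B * ξ) 0 ≤ |A| * |r| + |B| * |ξ| := by
    apply max_le
    · calc A * r + B * ξ ≤ |A * r + B * ξ| := le_abs_self _
        _ ≤ |A * r| + |B * ξ| := abs_add_le _ _
        _ = |A| * |r| + |B| * |ξ| := by rw [abs_mul, abs_mul]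
    · positivity
  have h20 : 0 ≤ max (A * r + B * ξ) 0 := le_max_right _ _
  have h3 : (if B * ξ ≤ C * r then (1 : ℝ) else 0) ≤ 1 := by
    split_ifs <;> norm_num
  have h30 : (0 : ℝ) ≤ if B * ξ ≤ C * r then 1 else 0 := by
    split_ifs <;> norm_num
  have h4 : (max (A * r + B * ξ) 0) ^ 2 ≤ (|A| * |r| + |B| * |ξ|) ^ 2 :=
    pow_le_pow_left₀ h20 h2 2
  calc max r 0 * (max (A * r + B * ξ) 0) ^ 2 * (if B * ξ ≤ C * r then 1 else 0)
      ≤ max r 0 * (max (A * r + B * ξ) 0) ^ 2 * 1 :=
        mul_le_mul_of_nonneg_left h3 (by positivity)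
    _ = max r 0 * (max (A * r + B * ξ) 0) ^ 2 := by ring
    _ ≤ |r| * (|A| * |r| + |B| * |ξ|) ^ 2 := mul_le_mul h1 h4 (by positivity) (abs_nonneg r)
    _ = A ^ 2 * (|r| ^ 3 * 1) + 2 * |A| * |B| * (|r| ^ 2 * |ξ|) + B ^ 2 * (|r| * |ξ| ^ 2) := by
      have e1 : |A| ^ 2 = A ^ 2 := sq_abs A
      have e2 : |B| ^ 2 = B ^ 2 := sq_abs B
      rw [← e1, ← e2]
      ring

/-- the absolute moments of the Gaussian are finite -/
lemma integrable_abs_pow (n : ℕ) : Integrable (fun r : ℝ => |r| ^ n) (gaussianReal 0 1) := by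
  rcases Nat.eq_zero_or_pos n with hn | hn
  · subst hn
    simp
  · have h := (memLp_id_gaussianReal (μ := 0) (v := 1) (n : ℝ≥0))
    have h2 := h.integrable_norm_pow (by
      have : n ≠ 0 := by omega
      exact_mod_cast this)
    simpa using h2

/-- `PhiJ` is integrable for the product of two standard Gaussians. -/
lemma integrable_PhiJ (A B C : ℝ) :
    Integrable (fun p : ℝ × ℝ => PhiJ A B C p.1 p.2)
      ((gaussianReal 0 1).prod (gaussianReal 0 1)) := by
  have i1 : Integrable (fun p : ℝ × ℝ => |p.1| ^ 3 * (1 : ℝ))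
      ((gaussianReal 0 1).prod (gaussianReal 0 1)) :=
    (integrable_abs_pow 3).mul_prod (integrable_const (1 : ℝ))
  have i2 : Integrable (fun p : ℝ × ℝ => |p.1| ^ 2 * |p.2| ^ 1)
      ((gaussianReal 0 1).prod (gaussianReal 0 1)) :=
    (integrable_abs_pow 2).mul_prod (integrable_abs_pow 1)
  have i3 : Integrable (fun p : ℝ × ℝ => |p.1| ^ 1 * |p.2| ^ 2)
      ((gaussianReal 0 1).prod (gaussianReal 0 1)) :=
    (integrable_abs_pow 1).mul_prod (integrable_abs_pow 2)
  have hsum : Integrable (fun p : ℝ × ℝ => A ^ 2 * (|p.1| ^ 3 * 1) + 2 * |A| * |B| * (|p.1| ^ 2 * |p.2|) +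
      B ^ 2 * (|p.1| * |p.2| ^ 2)) ((gaussianReal 0 1).prod (gaussianReal 0 1)) := by
    refine Integrable.congr (((i1.const_mul (A ^ 2)).add (i2.const_mul (2 * |A| * |B|))).add
      (i3.const_mul (B ^ 2))) ?_
    filter_upwards with p
    simp
  refine hsum.mono' (measurable_PhiJ A B C).aestronglyMeasurable ?_
  filter_upwards with p
  rw [Real.norm_eq_abs, abs_of_nonneg (PhiJ_nonneg _ _ _ _ _)]
  exact PhiJ_le _ _ _ _ _

/-- the inner integral for fixed `r` -/
lemma integrable_PhiJ_inner (A B C r : ℝ) :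
    Integrable (fun ξ => PhiJ A B C r ξ) (gaussianReal 0 1) := by
  have i : Integrable (fun ξ : ℝ => A ^ 2 * (|r| ^ 3 * 1) + 2 * |A| * |B| * (|r| ^ 2 * |ξ| ^ 1) +
      B ^ 2 * (|r| * |ξ| ^ 2)) (gaussianReal 0 1) := by
    refine ((integrable_const _).add (((integrable_abs_pow 1).const_mul _).const_mul _)).add
      (((integrable_abs_pow 2).const_mul _).const_mul _)
  refine i.mono' ?_ ?_
  · have hm : Measurable fun ξ => PhiJ A B C r ξ :=
      (measurable_PhiJ A B C).comp (measurable_const.prodMk measurable_id)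
    exact hm.aestronglyMeasurable
  · filter_upwards with ξ
    rw [Real.norm_eq_abs, abs_of_nonneg (PhiJ_nonneg _ _ _ _ _)]
    have := PhiJ_le A B C r ξ
    simpa using this

/-- `Jhat` as an integral over the product -/
lemma Jhat_eq_prod (A B C : ℝ) :
    Jhat A B C = ∫ p, PhiJ A B C p.1 p.2 ∂((gaussianReal 0 1).prod (gaussianReal 0 1)) := by
  unfold Jhat
  rw [integral_prod _ (integrable_PhiJ A B C)]

/-- The inner integral over `ξ` -/
lemma inner_PhiJ_le {A B C r : ℝ} (hA : 0 ≤ A) (hC : 0 ≤ C) (hB : 0 < B) :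
    (∫ ξ, PhiJ A B C r ξ ∂(gaussianReal 0 1)) * B ≤ ph 0 * (A + C) ^ 3 / 3 * (max r 0) ^ 4 := by
  rcases le_or_gt r 0 with hr | hr
  · have h0 : ∀ ξ, PhiJ A B C r ξ = 0 := by
      intro ξ
      unfold PhiJ
      rw [max_eq_right hr]
      ring
    simp_rw [h0]
    simp only [integral_zero, zero_mul]
    rw [max_eq_right hr]
    simp
  · rw [max_eq_left hr.le]
    set a : ℝ := -(A * r) / B with ha
    set b : ℝ := C * r / B with hb
    have hab : a ≤ b := by
      rw [ha, hb]
      apply div_le_div_of_nonneg_right _ hB.le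
      have h1 : 0 ≤ A * r := by positivity
      have h2 : 0 ≤ C * r := by positivity
      linarith
    have hBa : B * a = -(A * r) := by
      rw [ha]
      field_simp
    have hBb : B * b = C * r := by
      rw [hb]
      field_simp
    -- off the interval the integrand vanishes
    have hoff : ∀ ξ, ξ ∉ Icc a b → PhiJ A B C r ξ = 0 := by
      intro ξ hξ
      unfold PhiJ
      by_cases h1 : B * ξ ≤ C * r
      · have h2 : ξ < a := by
          by_contra h3
          push Not at h3
          apply hξ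
          refine ⟨h3, ?_⟩
          have : B * ξ ≤ B * b := by rw [hBb]; exact h1
          exact le_of_mul_le_mul_left this hB
        have h3 : A * r + B * ξ ≤ 0 := by
          have : B * ξ ≤ B * a := mul_le_mul_of_nonneg_left h2.le hB.le
          rw [hBa] at this
          linarith
        rw [max_eq_right h3]
        ring
      · rw [if_neg h1]
        ring
    have hon : ∀ ξ, ξ ∈ Icc a b → PhiJ A B C r ξ = r * (A * r + B * ξ) ^ 2 := by
      intro ξ hξ
      unfold PhiJ
      have h1 : B * ξ ≤ C * r := by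
        rw [← hBb]
        exact mul_le_mul_of_nonneg_left hξ.2 hB.le
      have h2 : 0 ≤ A * r + B * ξ := by
        have : B * a ≤ B * ξ := mul_le_mul_of_nonneg_left hξ.1 hB.le
        rw [hBa] at this
        linarith
      rw [if_pos h1, max_eq_left hr.le, max_eq_left h2, mul_one]
    have e1 : ∫ ξ, PhiJ A B C r ξ ∂(gaussianReal 0 1) =
        ∫ ξ in Icc a b, PhiJ A B C r ξ ∂(gaussianReal 0 1) :=
      (setIntegral_eq_integral_of_forall_compl_eq_zero fun ξ hξ => hoff ξ hξ).symm
    rw [e1, setIntegral_gaussian measurableSet_Icc]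
    have hcont : Continuous fun ξ : ℝ => r * (A * r + B * ξ) ^ 2 := by fun_prop
    have hph : Continuous ph := by
      unfold ph
      fun_prop
    have e2 : ∫ ξ in Icc a b, ph ξ * PhiJ A B C r ξ = ∫ ξ in Icc a b, ph ξ * (r * (A * r + B * ξ) ^ 2) :=
      setIntegral_congr_fun measurableSet_Icc fun ξ hξ => by
        rw [hon ξ hξ]
    rw [e2]
    have hle : ∫ ξ in Icc a b, ph ξ * (r * (A * r + B * ξ) ^ 2) ≤
        ∫ ξ in Icc a b, ph 0 * (r * (A * r + B * ξ) ^ 2) := by
      apply setIntegral_mono_on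
      · exact (Continuous.continuousOn (by fun_prop)).integrableOn_compact isCompact_Icc
      · exact (Continuous.continuousOn (by fun_prop)).integrableOn_compact isCompact_Icc
      · exact measurableSet_Icc
      · intro ξ _
        exact mul_le_mul_of_nonneg_right (ph_le_ph_zero ξ) (by positivity)
    have e3 : ∫ ξ in Icc a b, ph 0 * (r * (A * r + B * ξ) ^ 2) =
        ph 0 * (r * (((A + C) * r) ^ 3 / (3 * B))) := by
      rw [integral_const_mul, integral_const_mul, integral_Icc_eq_integral_Ioc,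
        ← intervalIntegral.integral_of_le hab]
      have hd : ∀ x ∈ uIcc a b, HasDerivAt (fun ξ : ℝ => (A * r + B * ξ) ^ 3 / (3 * B))
          ((A * r + B * x) ^ 2) x := by
        intro x _
        have h1 : HasDerivAt (fun ξ : ℝ => A * r + B * ξ) B x := by
          simpa using ((hasDerivAt_id x).const_mul B).const_add (A * r)
        have h2 := (h1.pow 3).div_const (3 * B)
        refine h2.congr_deriv ?_
        field_simp
        norm_num
        ring
      rw [intervalIntegral.integral_eq_sub_of_hasDerivAt hd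
        ((Continuous.intervalIntegrable (by fun_prop) a b)), hBa, hBb]
      congr 2
      have : A * r + -(A * r) = 0 := by ring
      rw [this]
      have h2 : A * r + C * r = (A + C) * r := by ring
      rw [h2]
      field_simp
      ring
    calc (∫ ξ in Icc a b, ph ξ * (r * (A * r + B * ξ) ^ 2)) * B
        ≤ (ph 0 * (r * (((A + C) * r) ^ 3 / (3 * B)))) * B :=
          mul_le_mul_of_nonneg_right (hle.trans_eq e3) hB.le
      _ = ph 0 * (A + C) ^ 3 / 3 * r ^ 4 := by
          field_simp

/-- `E[r₊⁴] = 3/2` -/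
lemma integral_max_pow_four : ∫ r, (max r 0) ^ 4 ∂(gaussianReal 0 1) = 3 / 2 := by
  have hoff : ∀ r, r ∉ Ioi (0 : ℝ) → (max r 0) ^ 4 = 0 := by
    intro r hr
    have : r ≤ 0 := not_lt.1 hr
    rw [max_eq_right this]
    norm_num
  rw [← setIntegral_eq_integral_of_forall_compl_eq_zero hoff,
    setIntegral_gaussian measurableSet_Ioi]
  have e : ∫ r in Ioi (0 : ℝ), ph r * (max r 0) ^ 4 =
      (√(2 * π))⁻¹ * Vale.Agent.P226h15.TT 4 := by
    unfold Vale.Agent.P226h15.TT
    rw [← integral_const_mul]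
    apply setIntegral_congr_fun measurableSet_Ioi
    intro r hr
    have hr' : (0 : ℝ) < r := hr
    simp only
    rw [max_eq_left hr'.le]
    unfold ph
    have : -r ^ 2 / 2 = -(1 / 2) * r ^ 2 := by ring
    rw [this]
    ring
  rw [e]
  have h2 : Vale.Agent.P226h15.TT 4 = 3 * Vale.Agent.P226h15.TT 0 := by
    have h1 := Vale.Agent.P226h15.TT_add_two 2
    have h0 := Vale.Agent.P226h15.TT_add_two 0
    norm_num at h1 h0
    rw [h1, h0]
  rw [h2, Vale.Agent.P226h15.TT_eq 0]
  have hG : Gamma (((0 : ℕ) + 1 : ℝ) / 2) = √π := by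
    have := Real.Gamma_one_half_eq
    norm_num
    exact this
  rw [hG]
  have hp : (0 : ℝ) < π := Real.pi_pos
  have hrp : (1 / 2 : ℝ) ^ (-((0 : ℕ) + 1 : ℝ) / 2) = √2 := by
    have : -(((0 : ℕ) : ℝ) + 1) / 2 = -(1 / 2 : ℝ) := by norm_num
    rw [this, Real.rpow_neg (by norm_num), ← Real.inv_rpow (by norm_num),
      Real.sqrt_eq_rpow]
    norm_num
  rw [hrp]
  have hs : √(2 * π) = √2 * √π := Real.sqrt_mul (by norm_num) π
  rw [hs]
  have h2p : √2 ≠ 0 := by positivity
  have hpp : √π ≠ 0 := by positivity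
  field_simp

lemma integrable_max_pow_four : Integrable (fun r : ℝ => (max r 0) ^ 4) (gaussianReal 0 1) := by
  refine (integrable_abs_pow 4).mono' ?_ ?_
  · have hm : Measurable fun r : ℝ => (max r 0) ^ 4 := (measurable_id.max measurable_const).pow_const 4
    exact hm.aestronglyMeasurable
  · filter_upwards with r
    rw [Real.norm_eq_abs, abs_of_nonneg (by positivity)]
    exact pow_le_pow_left₀ (le_max_right _ _) (max_le (le_abs_self r) (abs_nonneg r)) 4

/-- **Module J1.** -/
theorem JBoundV_holds : JBoundV := by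
  intro A B C hA hC hB
  unfold Jhat
  rw [← integral_mul_const]
  have hint : Integrable (fun r : ℝ => ph 0 * (A + C) ^ 3 / 3 * (max r 0) ^ 4) (gaussianReal 0 1) :=
    integrable_max_pow_four.const_mul _
  have hmono := integral_mono_of_nonneg (μ := gaussianReal 0 1)
    (f := fun r => (∫ ξ, PhiJ A B C r ξ ∂(gaussianReal 0 1)) * B)
    (g := fun r : ℝ => ph 0 * (A + C) ^ 3 / 3 * (max r 0) ^ 4)
    (Eventually.of_forall fun r => mul_nonneg (integral_nonneg fun ξ => PhiJ_nonneg _ _ _ _ _) hB.le)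
    hint
    (Eventually.of_forall fun r => inner_PhiJ_le hA hC hB)
  refine hmono.trans_eq ?_
  rw [integral_const_mul, integral_max_pow_four]
  ring

end Vale.Agent.P226h4
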