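import Vale.Agent.P226h4.TLemma
import Vale.Agent.P226h15.CapD4

/-! Module P of the flux route: the parallelogram bound. -/

open MeasureTheory ProbabilityTheory Real Set Filter Topology
open scoped RealInnerProductSpace ENNReal NNReal

namespace Vale.Agent.P226h4

open Vale.Agent.P226h14

lemma integral_max_pow_three : ∫ r, (max r 0) ^ 3 ∂(gaussianReal 0 1) = 2 * ph 0 := by
  have hoff : ∀ r, r ∉ Ioi (0 : ℝ) → (max r 0) ^ 3 = 0 := by
    intro r hr
    have : r ≤ 0 := not_lt.1 hr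
    rw [max_eq_right this]
    norm_num
  rw [← setIntegral_eq_integral_of_forall_compl_eq_zero hoff,
    setIntegral_gaussian measurableSet_Ioi]
  have e : ∫ r in Ioi (0 : ℝ), ph r * (max r 0) ^ 3 =
      (√(2 * π))⁻¹ * Vale.Agent.P226h15.TT 3 := by
    unfold Vale.Agent.P226h15.TT
    rw [← integral_const_mul]
    apply setIntegral_congr_fun measurableSet_Ioi
    intro r hr
    have hr' : (0 : ℝ) < r := hr
    simp only
    rw [max_eq_left hr'.le]
    unfold ph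
    have : -r ^ 2 / 2 = -(1 / 2) * r ^ 2 := by ring
    rw [this]
    ring
  rw [e]
  have h3 : Vale.Agent.P226h15.TT 3 = 2 * Vale.Agent.P226h15.TT 1 := by
    have := Vale.Agent.P226h15.TT_add_two 1
    norm_num at this
    linarith
  rw [h3, Vale.Agent.P226h15.TT_one]
  have h4 : ph 0 = (√(2 * π))⁻¹ := by simp [ph]
  rw [h4]
  ring

lemma integrable_max_pow_three : Integrable (fun r : ℝ => (max r 0) ^ 3) (gaussianReal 0 1) := by
  refine (integrable_abs_pow 3).mono' ?_ ?_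
  · exact ((measurable_id.max measurable_const).pow_const 3).aestronglyMeasurable
  · refine Eventually.of_forall fun r => ?_
    rw [Real.norm_eq_abs, abs_pow, abs_of_nonneg (le_max_right r 0)]
    exact pow_le_pow_left₀ (le_max_right _ _) (max_le (le_abs_self r) (abs_nonneg r)) 3

lemma max_mul_max_le {L1 L2 S r : ℝ} (hS : 0 ≤ S) (hL : L1 + L2 = S * r) :
    max L1 0 * max L2 0 ≤ (S * max r 0) ^ 2 / 4 := by
  by_cases h1 : L1 ≤ 0
  · rw [max_eq_right h1, zero_mul]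
    positivity
  · by_cases h2 : L2 ≤ 0
    · rw [max_eq_right h2, mul_zero]
      positivity
    · have h1' : 0 < L1 := not_le.1 h1
      have h2' : 0 < L2 := not_le.1 h2
      have hr : 0 < r := by
        by_contra hc
        have : S * r ≤ 0 := mul_nonpos_of_nonneg_of_nonpos hS (not_lt.1 hc)
        linarith
      rw [max_eq_left h1'.le, max_eq_left h2'.le, max_eq_left hr.le, ← hL]
      nlinarith [sq_nonneg (L1 - L2)]

/-- The four constraints of the parallelogram bound, in coordinates. -/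
def DP (s p1 p q d0 d1 d2 d3 : ℝ) (H : Fin 4 → ℝ) : Set (ℝ × ℝ × ℝ × ℝ) :=
  {P | d0 * P.2.1 + p1 * P.2.2.1 ≤ H 0 * s * P.1 ∧ d1 * P.2.1 - p1 * P.2.2.1 ≤ H 1 * s * P.1 ∧
    d2 * P.2.1 + q * P.2.2.1 + p * P.2.2.2 ≤ H 2 * s * P.1 ∧
    d3 * P.2.1 - q * P.2.2.1 - p * P.2.2.2 ≤ H 3 * s * P.1}

lemma measurableSet_DP (s p1 p q d0 d1 d2 d3 : ℝ) (H : Fin 4 → ℝ) :
    MeasurableSet (DP s p1 p q d0 d1 d2 d3 H) := by
  have m0 : MeasurableSet {P : ℝ × ℝ × ℝ × ℝ | d0 * P.2.1 + p1 * P.2.2.1 ≤ H 0 * s * P.1} :=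
    measurableSet_le (by fun_prop) (by fun_prop)
  have m1 : MeasurableSet {P : ℝ × ℝ × ℝ × ℝ | d1 * P.2.1 - p1 * P.2.2.1 ≤ H 1 * s * P.1} :=
    measurableSet_le (by fun_prop) (by fun_prop)
  have m2 : MeasurableSet {P : ℝ × ℝ × ℝ × ℝ |
      d2 * P.2.1 + q * P.2.2.1 + p * P.2.2.2 ≤ H 2 * s * P.1} :=
    measurableSet_le (by fun_prop) (by fun_prop)
  have m3 : MeasurableSet {P : ℝ × ℝ × ℝ × ℝ |
      d3 * P.2.1 - q * P.2.2.1 - p * P.2.2.2 ≤ H 3 * s * P.1} :=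
    measurableSet_le (by fun_prop) (by fun_prop)
  exact m0.inter (m1.inter (m2.inter m3))

lemma DP_section {s p1 p q d0 d1 d2 d3 : ℝ} (hs : 0 < s) (hp1 : 0 < p1) (hp : 0 < p)
    (hd : d0 + d1 + d2 + d3 = 0) {H : Fin 4 → ℝ} (hH : ∀ i, 0 ≤ H i) (r ξ : ℝ) :
    ∫⁻ g1, ∫⁻ g2, (DP s p1 p q d0 d1 d2 d3 H).indicator (fun P => ENNReal.ofReal (max P.1 0))
      (r, ξ, g1, g2) ∂(gaussianReal 0 1) ∂(gaussianReal 0 1) ≤
    ENNReal.ofReal (((∑ i, H i) ^ 2 * s ^ 2 / (8 * π * p1 * p)) * (max r 0) ^ 3) := by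
  set lo1 := d1 * ξ - H 1 * s * r with hlo1
  set hi1 := H 0 * s * r - d0 * ξ with hhi1
  set lo2 := d3 * ξ - H 3 * s * r with hlo2
  set hi2 := H 2 * s * r - d2 * ξ with hhi2
  have hpt : ∀ g1 g2, (DP s p1 p q d0 d1 d2 d3 H).indicator (fun P => ENNReal.ofReal (max P.1 0))
      (r, ξ, g1, g2) =
      ENNReal.ofReal (max r 0) * (parS p1 p q lo1 hi1 lo2 hi2).indicator 1 (g1, g2) := by
    intro g1 g2
    by_cases hmem : (g1, g2) ∈ parS p1 p q lo1 hi1 lo2 hi2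
    · have hD : ((r, ξ, g1, g2) : ℝ × ℝ × ℝ × ℝ) ∈ DP s p1 p q d0 d1 d2 d3 H := by
        obtain ⟨a1, a2, a3, a4⟩ := hmem
        simp only at a1 a2 a3 a4
        refine ⟨?_, ?_, ?_, ?_⟩
        · show d0 * ξ + p1 * g1 ≤ H 0 * s * r
          linarith
        · show d1 * ξ - p1 * g1 ≤ H 1 * s * r
          linarith
        · show d2 * ξ + q * g1 + p * g2 ≤ H 2 * s * r
          linarith
        · show d3 * ξ - q * g1 - p * g2 ≤ H 3 * s * r
          linarith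
      rw [Set.indicator_of_mem hD, Set.indicator_of_mem hmem]
      simp
    · have hD : ((r, ξ, g1, g2) : ℝ × ℝ × ℝ × ℝ) ∉ DP s p1 p q d0 d1 d2 d3 H := by
        rintro ⟨a1, a2, a3, a4⟩
        simp only at a1 a2 a3 a4
        apply hmem
        refine ⟨?_, ?_, ?_, ?_⟩
        · show lo1 ≤ p1 * g1
          linarith
        · show p1 * g1 ≤ hi1
          linarith
        · show lo2 ≤ q * g1 + p * g2
          linarith
        · show q * g1 + p * g2 ≤ hi2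
          linarith
      rw [Set.indicator_of_notMem hD, Set.indicator_of_notMem hmem]
      simp
  simp_rw [hpt]
  have hne : ENNReal.ofReal (max r 0) ≠ ∞ := ENNReal.ofReal_ne_top
  simp_rw [lintegral_const_mul' _ _ hne]
  refine (mul_le_mul_right (par_area hp1 hp q lo1 hi1 lo2 hi2) _).trans ?_
  rw [← ENNReal.ofReal_mul (le_max_right _ _)]
  apply ENNReal.ofReal_le_ofReal
  have hS : 0 ≤ ∑ i, H i := Finset.sum_nonneg fun i _ => hH i
  have hsum : (hi1 - lo1) + (hi2 - lo2) = ((∑ i, H i) * s) * r := by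
    rw [Fin.sum_univ_four, hhi1, hlo1, hhi2, hlo2]
    have : d0 * ξ + d1 * ξ + d2 * ξ + d3 * ξ = 0 := by
      rw [← add_mul, ← add_mul, ← add_mul, hd, zero_mul]
    linarith
  have hkey := max_mul_max_le (mul_nonneg hS hs.le) hsum
  have hr0 : 0 ≤ max r 0 := le_max_right _ _
  have hpos : 0 < 2 * π * p1 * p := by positivity
  calc max r 0 * (max (hi1 - lo1) 0 * max (hi2 - lo2) 0 / (2 * π * p1 * p))
      ≤ max r 0 * ((((∑ i, H i) * s) * max r 0) ^ 2 / 4 / (2 * π * p1 * p)) := by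
        apply mul_le_mul_of_nonneg_left _ hr0
        exact div_le_div_of_nonneg_right hkey hpos.le
    _ = _ := by
        field_simp
        ring

section Main

variable {E : Type*} [NormedAddCommGroup E] [InnerProductSpace ℝ E] [FiniteDimensional ℝ E]
  [MeasurableSpace E] [BorelSpace E]

/-- The parallelogram bound in an orthonormal frame. -/
theorem P_frame {e a f1 f2 : E} (he : ‖e‖ = 1) (ha : ‖a‖ = 1) (h1 : ‖f1‖ = 1) (h2 : ‖f2‖ = 1)
    (hea : ⟪e, a⟫ = 0) (he1 : ⟪e, f1⟫ = 0) (he2 : ⟪e, f2⟫ = 0) (ha1 : ⟪a, f1⟫ = 0)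
    (ha2 : ⟪a, f2⟫ = 0) (h12 : ⟪f1, f2⟫ = 0) {s p1 p q d0 d1 d2 d3 : ℝ} (hs : 0 < s)
    (hp1 : 0 < p1) (hp : 0 < p) (hd : d0 + d1 + d2 + d3 = 0) {τ : Fin 4 → E}
    (hτ0 : τ 0 = d0 • a + p1 • f1) (hτ1 : τ 1 = d1 • a - p1 • f1)
    (hτ2 : τ 2 = d2 • a + q • f1 + p • f2)
    (hτ3 : τ 3 = d3 • a - q • f1 - p • f2) {H : Fin 4 → ℝ} (hH : ∀ i, 0 ≤ H i) :
    ∫ x in Cset e τ H s, ⟪e, x⟫ ∂(stdGaussian E) ≤
      ((∑ i, H i) ^ 2 * s ^ 2 / (8 * π * p1 * p)) * (2 * ph 0) := by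
  have hin0 : ∀ x, ⟪τ 0, x⟫ = d0 * ⟪a, x⟫ + p1 * ⟪f1, x⟫ := by
    intro x
    rw [hτ0, inner_add_left, real_inner_smul_left, real_inner_smul_left]
  have hin1 : ∀ x, ⟪τ 1, x⟫ = d1 * ⟪a, x⟫ - p1 * ⟪f1, x⟫ := by
    intro x
    rw [hτ1, inner_sub_left, real_inner_smul_left, real_inner_smul_left]
  have hin2 : ∀ x, ⟪τ 2, x⟫ = d2 * ⟪a, x⟫ + q * ⟪f1, x⟫ + p * ⟪f2, x⟫ := by
    intro x
    rw [hτ2, inner_add_left, inner_add_left, real_inner_smul_left, real_inner_smul_left,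
      real_inner_smul_left]
  have hin3 : ∀ x, ⟪τ 3, x⟫ = d3 * ⟪a, x⟫ - q * ⟪f1, x⟫ - p * ⟪f2, x⟫ := by
    intro x
    rw [hτ3, inner_sub_left, inner_sub_left, real_inner_smul_left, real_inner_smul_left,
      real_inner_smul_left]
  have hC : ∀ x, x ∈ Cset e τ H s ↔
      ((⟪e, x⟫, ⟪a, x⟫, ⟪f1, x⟫, ⟪f2, x⟫) : ℝ × ℝ × ℝ × ℝ) ∈ DP s p1 p q d0 d1 d2 d3 H := by
    intro x
    constructor
    · intro h
      refine ⟨?_, ?_, ?_, ?_⟩
      · have := h 0
        rwa [hin0] at this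
      · have := h 1
        rwa [hin1] at this
      · have := h 2
        rwa [hin2] at this
      · have := h 3
        rwa [hin3] at this
    · rintro ⟨h0, h1, h2, h3⟩ i
      fin_cases i
      · show ⟪τ 0, x⟫ ≤ H 0 * s * ⟪e, x⟫
        rw [hin0]; exact h0
      · show ⟪τ 1, x⟫ ≤ H 1 * s * ⟪e, x⟫
        rw [hin1]; exact h1
      · show ⟪τ 2, x⟫ ≤ H 2 * s * ⟪e, x⟫
        rw [hin2]; exact h2
      · show ⟪τ 3, x⟫ ≤ H 3 * s * ⟪e, x⟫
        rw [hin3]; exact h3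
  have hκ : 0 ≤ (∑ i, H i) ^ 2 * s ^ 2 / (8 * π * p1 * p) := by positivity
  have hm3 : Measurable fun P : ℝ × ℝ => (max P.1 0) ^ 3 :=
    (measurable_fst.max measurable_const).pow_const 3
  have hi3 : Integrable (fun P : ℝ × ℝ => (max P.1 0) ^ 3)
      ((gaussianReal 0 1).prod (gaussianReal 0 1)) :=
    integrable_max_pow_three.comp_fst _
  have hkey := frame_bound he ha h1 h2 hea he1 he2 ha1 ha2 h12
    (measurableSet_DP s p1 p q d0 d1 d2 d3 H) hC
    (Bd := fun r _ => ((∑ i, H i) ^ 2 * s ^ 2 / (8 * π * p1 * p)) * (max r 0) ^ 3)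
    (fun r _ => mul_nonneg hκ (pow_nonneg (le_max_right _ _) 3))
    (hm3.const_mul _) (hi3.const_mul _)
    (fun r ξ => DP_section hs hp1 hp hd hH r ξ)
  have hint : ∫ P : ℝ × ℝ, (max P.1 0) ^ 3 ∂((gaussianReal 0 1).prod (gaussianReal 0 1)) =
      2 * ph 0 := by
    rw [integral_fun_fst (fun r : ℝ => (max r 0) ^ 3), integral_max_pow_three]
    simp
  rw [integral_const_mul, hint] at hkey
  exact hkey

variable (E) in
/-- Module P. -/
theorem PBound_holds : PBound E := by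
  intro e τ H s he hτe hsum hneg hH hs
  have hsum4 : τ 0 + τ 1 + τ 2 + τ 3 = 0 := by
    simpa [Fin.sum_univ_four] using hsum
  have h01 := hneg 0 1 (by decide)
  have h02 := hneg 0 2 (by decide)
  have h03 := hneg 0 3 (by decide)
  have h12 := hneg 1 2 (by decide)
  have h13 := hneg 1 3 (by decide)
  have h23 := hneg 2 3 (by decide)
  obtain ⟨T, hT⟩ : ∃ T, T = τ 0 + τ 1 := ⟨_, rfl⟩
  have hT0 : T ≠ 0 := by
    intro h0
    have : ⟪T, τ 2⟫ = ⟪τ 0, τ 2⟫ + ⟪τ 1, τ 2⟫ := by rw [hT, inner_add_left]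
    rw [h0, inner_zero_left] at this
    linarith
  have ht : 0 < ‖T‖ := norm_pos_iff.2 hT0
  obtain ⟨t, htt⟩ : ∃ t, t = ‖T‖ := ⟨_, rfl⟩
  rw [← htt] at ht
  obtain ⟨a, haa⟩ : ∃ a, a = t⁻¹ • T := ⟨_, rfl⟩
  have ha : ‖a‖ = 1 := by
    rw [haa, norm_smul, norm_inv, Real.norm_eq_abs, abs_of_pos ht, ← htt]
    exact inv_mul_cancel₀ ht.ne'
  have haa1 : ⟪a, a⟫ = 1 := by
    rw [real_inner_self_eq_norm_sq, ha]; norm_num
  have hTa : T = t • a := by
    rw [haa, smul_smul, mul_inv_cancel₀ ht.ne', one_smul]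
  have hea : ⟪e, a⟫ = 0 := by
    rw [haa, real_inner_smul_right, hT, inner_add_right, hτe 0, hτe 1]
    simp
  -- coordinates along `a`
  set d : Fin 4 → ℝ := fun i => ⟪τ i, a⟫ with hd_def
  have hin : ∀ i, ⟪τ i, T⟫ = t * d i := by
    intro i
    rw [hTa, real_inner_smul_right]
  have hd01 : d 0 + d 1 = t := by
    have : ⟪T, a⟫ = t := by
      rw [hTa, real_inner_smul_left, haa1, mul_one]
    rw [hT, inner_add_left] at this
    exact this
  have hd23 : d 2 + d 3 = -t := by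
    have h1 : ⟪τ 0 + τ 1 + τ 2 + τ 3, a⟫ = 0 := by rw [hsum4, inner_zero_left]
    rw [inner_add_left, inner_add_left, inner_add_left] at h1
    have h2 : d 0 + d 1 + d 2 + d 3 = 0 := h1
    linarith
  have hd : d 0 + d 1 + d 2 + d 3 = 0 := by linarith
  have hc0 : ‖τ 0‖ ^ 2 + ⟪τ 0, τ 1⟫ + ⟪τ 0, τ 2⟫ + ⟪τ 0, τ 3⟫ = 0 := by
    have h1 : ⟪τ 0, τ 0 + τ 1 + τ 2 + τ 3⟫ = 0 := by rw [hsum4, inner_zero_right]
    rw [inner_add_right, inner_add_right, inner_add_right, real_inner_self_eq_norm_sq] at h1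
    exact h1
  have hc1 : ⟪τ 1, τ 0⟫ + ‖τ 1‖ ^ 2 + ⟪τ 1, τ 2⟫ + ⟪τ 1, τ 3⟫ = 0 := by
    have h1 : ⟪τ 1, τ 0 + τ 1 + τ 2 + τ 3⟫ = 0 := by rw [hsum4, inner_zero_right]
    rw [inner_add_right, inner_add_right, inner_add_right, real_inner_self_eq_norm_sq] at h1
    exact h1
  have hd0 : 0 < d 0 := by
    have h1 := hin 0
    rw [hT, inner_add_right, real_inner_self_eq_norm_sq] at h1
    have : 0 < t * d 0 := by linarith
    exact (mul_pos_iff_of_pos_left ht).1 this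
  have hd1 : 0 < d 1 := by
    have h1 := hin 1
    rw [hT, inner_add_right, real_inner_self_eq_norm_sq] at h1
    have : 0 < t * d 1 := by linarith
    exact (mul_pos_iff_of_pos_left ht).1 this
  have hd2 : d 2 < 0 := by
    have h1 := hin 2
    rw [hT, inner_add_right, real_inner_comm (τ 0) (τ 2), real_inner_comm (τ 1) (τ 2)] at h1
    have : t * d 2 < 0 := by linarith
    exact (pos_iff_neg_of_mul_neg this).1 ht
  have hd3 : d 3 < 0 := by
    have h1 := hin 3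
    rw [hT, inner_add_right, real_inner_comm (τ 0) (τ 3), real_inner_comm (τ 1) (τ 3)] at h1
    have : t * d 3 < 0 := by linarith
    exact (pos_iff_neg_of_mul_neg this).1 ht
  -- the projected vectors
  have hP : ∀ i j, ⟪τ i - d i • a, τ j - d j • a⟫ = ⟪τ i, τ j⟫ - d i * d j := by
    intro i j
    rw [inner_sub_left, inner_sub_right, inner_sub_right, real_inner_smul_left,
      real_inner_smul_right, real_inner_smul_left, real_inner_smul_right, haa1,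
      real_inner_comm (τ j) a]
    simp only [hd_def]
    ring
  obtain ⟨a1, ha1⟩ : ∃ v, v = τ 0 - d 0 • a := ⟨_, rfl⟩
  obtain ⟨b1, hb1⟩ : ∃ v, v = τ 2 - d 2 • a := ⟨_, rfl⟩
  have hP1 : τ 1 - d 1 • a = -a1 := by
    have h1 : τ 1 = t • a - τ 0 := by
      rw [← hTa, hT]; abel
    have h2 : d 1 = t - d 0 := by linarith
    rw [ha1, h1, h2]
    module
  have hP3 : τ 3 - d 3 • a = -b1 := by
    have h1 : τ 3 = -(t • a) - τ 2 := by
      rw [← hTa, hT]
      have : τ 3 = -(τ 0 + τ 1 + τ 2) := by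
        rw [eq_neg_iff_add_eq_zero, add_comm]; exact hsum4
      rw [this]; abel
    have h2 : d 3 = -t - d 2 := by linarith
    rw [hb1, h1, h2]
    module
  -- the Gram determinant
  obtain ⟨X, hX⟩ : ∃ X, X = ⟪a1, b1⟫ := ⟨_, rfl⟩
  have hna : ‖a1‖ ^ 2 = d 0 * d 1 - ⟪τ 0, τ 1⟫ := by
    have h1 := hP 0 1
    rw [hP1, ← ha1, inner_neg_right, real_inner_self_eq_norm_sq] at h1
    linarith
  have hnb : ‖b1‖ ^ 2 = d 2 * d 3 - ⟪τ 2, τ 3⟫ := by
    have h1 := hP 2 3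
    rw [hP3, ← hb1, inner_neg_right, real_inner_self_eq_norm_sq] at h1
    linarith
  have hX02 : X = ⟪τ 0, τ 2⟫ - d 0 * d 2 := by
    have h1 := hP 0 2
    rw [← ha1, ← hb1] at h1
    rw [hX, h1]
  have hX03 : X = -(⟪τ 0, τ 3⟫ - d 0 * d 3) := by
    have h1 := hP 0 3
    rw [hP3, ← ha1, inner_neg_right] at h1
    rw [hX]
    linarith
  have hX12 : X = -(⟪τ 1, τ 2⟫ - d 1 * d 2) := by
    have h1 := hP 1 2
    rw [hP1, ← hb1, inner_neg_left] at h1
    rw [hX]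
    linarith
  have hX13 : X = ⟪τ 1, τ 3⟫ - d 1 * d 3 := by
    have h1 := hP 1 3
    rw [hP1, hP3, inner_neg_left, inner_neg_right, neg_neg] at h1
    rw [hX]
    linarith
  have hXsq : X ^ 2 ≤ (d 0 * d 1) * (d 2 * d 3) := by
    by_cases hX0 : 0 ≤ X
    · have u1 : X ≤ d 0 * (-d 2) := by linarith [hX02]
      have u2 : X ≤ d 1 * (-d 3) := by linarith [hX13]
      calc X ^ 2 = X * X := by ring
        _ ≤ (d 0 * (-d 2)) * (d 1 * (-d 3)) := mul_le_mul u1 u2 hX0 (le_trans hX0 u1)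
        _ = _ := by ring
    · have hX0' : 0 < -X := by linarith [not_le.1 hX0]
      have u1 : -X ≤ d 0 * (-d 3) := by linarith [hX03]
      have u2 : -X ≤ d 1 * (-d 2) := by linarith [hX12]
      calc X ^ 2 = (-X) * (-X) := by ring
        _ ≤ (d 0 * (-d 3)) * (d 1 * (-d 2)) := mul_le_mul u1 u2 hX0'.le (le_trans hX0'.le u1)
        _ = _ := by ring
  obtain ⟨c01, hc01⟩ : ∃ c, c = -⟪τ 0, τ 1⟫ := ⟨_, rfl⟩
  obtain ⟨c23, hc23⟩ : ∃ c, c = -⟪τ 2, τ 3⟫ := ⟨_, rfl⟩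
  have hc01p : 0 < c01 := by rw [hc01]; linarith
  have hc23p : 0 < c23 := by rw [hc23]; linarith
  have hGam : c01 * c23 ≤ ‖a1‖ ^ 2 * ‖b1‖ ^ 2 - ⟪a1, b1⟫ ^ 2 := by
    rw [hna, hnb, ← hX]
    have e1 : d 0 * d 1 - ⟪τ 0, τ 1⟫ = d 0 * d 1 + c01 := by rw [hc01]; ring
    have e2 : d 2 * d 3 - ⟪τ 2, τ 3⟫ = d 2 * d 3 + c23 := by rw [hc23]; ring
    rw [e1, e2]
    have p1 : 0 < d 0 * d 1 := mul_pos hd0 hd1
    have p2 : 0 < d 2 * d 3 := mul_pos_of_neg_of_neg hd2 hd3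
    have p3 : 0 < (d 0 * d 1) * c23 := mul_pos p1 hc23p
    have p4 : 0 < c01 * (d 2 * d 3) := mul_pos hc01p p2
    nlinarith
  have hpp : 0 < c01 * c23 := mul_pos hc01p hc23p
  obtain ⟨f1, f2, p1, p, q, hp1, hp, hf1, hf2, hf12, ha1f, hb1f, hdet, hw⟩ :=
    frame2 a1 b1 (lt_of_lt_of_le hpp hGam)
  -- orthogonality of the frame
  have hea1 : ⟪e, a1⟫ = 0 := by
    rw [ha1, inner_sub_right, hτe 0, real_inner_smul_right, hea]; ring
  have heb1 : ⟪e, b1⟫ = 0 := by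
    rw [hb1, inner_sub_right, hτe 2, real_inner_smul_right, hea]; ring
  have haa1' : ⟪a, a1⟫ = 0 := by
    rw [ha1, inner_sub_right, real_inner_comm, real_inner_smul_right, haa1]
    simp only [hd_def]
    ring
  have hab1' : ⟪a, b1⟫ = 0 := by
    rw [hb1, inner_sub_right, real_inner_comm, real_inner_smul_right, haa1]
    simp only [hd_def]
    ring
  obtain ⟨he1, he2⟩ := hw e hea1 heb1
  obtain ⟨hA1, hA2⟩ := hw a haa1' hab1'
  -- the frame form of the vectors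
  have hτ0 : τ 0 = d 0 • a + p1 • f1 := by
    rw [← ha1f, ha1]; abel
  have hτ1 : τ 1 = d 1 • a - p1 • f1 := by
    rw [← ha1f, sub_eq_add_neg, ← hP1]; abel
  have hτ2 : τ 2 = d 2 • a + q • f1 + p • f2 := by
    have : τ 2 = d 2 • a + b1 := by rw [hb1]; abel
    rw [this, hb1f]; abel
  have hτ3 : τ 3 = d 3 • a - q • f1 - p • f2 := by
    have : τ 3 = d 3 • a - b1 := by
      rw [sub_eq_add_neg, ← hP3]; abel
    rw [this, hb1f]; abel
  have hkey := P_frame he ha hf1 hf2 hea he1 he2 hA1 hA2 hf12 hs hp1 hp hd hτ0 hτ1 hτ2 hτ3 hH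
  -- conclusion
  have hprod : ⟪τ 0, τ 1⟫ * ⟪τ 2, τ 3⟫ = c01 * c23 := by
    rw [hc01, hc23]; ring
  rw [hprod]
  have hsq : √(c01 * c23) ≤ p1 * p := by
    rw [Real.sqrt_le_left (by positivity)]
    rw [hdet]
    exact hGam
  have hpos : 0 < 8 * π * p1 * p := by positivity
  have hph := ph_pos 0
  calc _ ≤ (((∑ i, H i) ^ 2 * s ^ 2 / (8 * π * p1 * p)) * (2 * ph 0)) *
        (4 * π * √(c01 * c23)) :=
        mul_le_mul_of_nonneg_right hkey (by positivity)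
    _ ≤ (((∑ i, H i) ^ 2 * s ^ 2 / (8 * π * p1 * p)) * (2 * ph 0)) *
        (4 * π * (p1 * p)) := by
        apply mul_le_mul_of_nonneg_left _ (by positivity)
        apply mul_le_mul_of_nonneg_left hsq (by positivity)
    _ = _ := by
        field_simp
        ring

end Main

end Vale.Agent.P226h4
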