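import Vale.Agent.P226h4.Spec

open MeasureTheory ProbabilityTheory Real Set Filter Topology
open scoped RealInnerProductSpace ENNReal NNReal

namespace Vale.Agent.P226h4

open Vale.Agent.P226h14

variable {E : Type*} [NormedAddCommGroup E] [InnerProductSpace ℝ E] [FiniteDimensional ℝ E]
  [MeasurableSpace E] [BorelSpace E]
variable {ι : Type*} [Fintype ι] [LinearOrder ι]

lemma measurableSet_Cset' (e : E) (τ : Fin 4 → E) (H : Fin 4 → ℝ)
    (s : ℝ) : MeasurableSet (Cset e τ H s) := by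
  have h1 : Cset e τ H s = ⋂ i, {x | ⟪τ i, x⟫ ≤ H i * s * ⟪e, x⟫} := by
    ext x
    simp [Cset]
  rw [h1]
  exact MeasurableSet.iInter fun i => measurableSet_le (measurable_inner_left _)
    ((measurable_inner_left e).const_mul _)

/-- the basic identities of the decomposition at a nonzero vertex -/
lemma vertex_facts {w : ι → E} {i0 : ι}
    (hfix : ∀ i, mom (vcell w i) = w i) (hobt : ∀ i j, i ≠ j → ⟪w i, w j⟫ < 0)
    (hz : 0 < ‖w i0‖) :
    ‖eDir w i0‖ = 1 ∧
    (∀ l, l ≠ i0 → 0 < bW w i0 l) ∧ (∑ l : {l // l ≠ i0}, bW w i0 l.1 = 1) ∧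
    (∀ l, l ≠ i0 → ⟪eDir w i0, tW w i0 l⟫ = 0) ∧ (∑ l : {l // l ≠ i0}, tW w i0 l.1 = 0) ∧
    (∀ l, l ≠ i0 → ‖w l‖ ^ 2 = (bW w i0 l) ^ 2 * ‖w i0‖ ^ 2 + ‖tW w i0 l‖ ^ 2) ∧
    (∀ l m, l ≠ i0 → m ≠ i0 → l ≠ m → ⟪tW w i0 l, tW w i0 m⟫ < 0) := by
  classical
  have hne : Nonempty ι := ⟨i0⟩
  set z : ℝ := ‖w i0‖ with hzd
  set e : E := eDir w i0 with hed
  have he : ‖e‖ = 1 := by
    rw [hed, eDir, norm_smul, norm_inv, norm_norm, ← hzd]
    field_simp
  have hee : ⟪e, e⟫ = 1 := by
    rw [real_inner_self_eq_norm_sq, he]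
    norm_num
  have hwe : w i0 = z • e := by
    rw [hed, eDir, smul_smul, ← hzd, mul_inv_cancel₀ hz.ne', one_smul]
  have hb : ∀ l, bW w i0 l = -⟪w l, e⟫ / z := fun l => rfl
  have hbz : ∀ l, bW w i0 l * z = -⟪w l, e⟫ := by
    intro l
    rw [hb]
    field_simp
  have ht : ∀ l, tW w i0 l = w l + (-⟪w l, e⟫) • e := by
    intro l
    rw [tW, ← hed, ← hzd, hbz]
  have hsumw : w i0 + ∑ l : {l // l ≠ i0}, w l.1 = 0 := by
    have h1 := sum_mom (isPart_vcell w)
    simp_rw [hfix] at h1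
    rw [Fintype.sum_eq_add_sum_subtype_ne w i0] at h1
    exact h1
  have hsumw2 : ∑ l : {l // l ≠ i0}, w l.1 = - w i0 := by
    rw [eq_neg_iff_add_eq_zero, add_comm]
    exact hsumw
  have hte : ∀ l, ⟪e, tW w i0 l⟫ = 0 := by
    intro l
    rw [ht, inner_add_right, real_inner_smul_right, hee, real_inner_comm]
    ring
  have hsumb : ∑ l : {l // l ≠ i0}, bW w i0 l.1 = 1 := by
    have h1 : ∑ l : {l // l ≠ i0}, ⟪w l.1, e⟫ = -z := by
      rw [← sum_inner, hsumw2, inner_neg_left, hwe, real_inner_smul_left, hee]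
      ring
    simp_rw [hb]
    rw [← Finset.sum_div, Finset.sum_neg_distrib, h1]
    field_simp
  have hsumt : ∑ l : {l // l ≠ i0}, tW w i0 l.1 = 0 := by
    simp_rw [ht]
    rw [Finset.sum_add_distrib, ← Finset.sum_smul, Finset.sum_neg_distrib, hsumw2]
    have h1 : ∑ l : {l // l ≠ i0}, ⟪w l.1, e⟫ = -z := by
      rw [← sum_inner, hsumw2, inner_neg_left, hwe, real_inner_smul_left, hee]
      ring
    rw [h1, hwe]
    simp
  refine ⟨he, ?_, hsumb, fun l _ => hte l, hsumt, ?_, ?_⟩
  · intro l hl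
    rw [hb]
    apply div_pos _ hz
    have h1 := hobt l i0 hl
    rw [hwe, real_inner_smul_right] at h1
    have h2 : ⟪w l, e⟫ < 0 := by
      by_contra hc
      push Not at hc
      have := mul_nonneg hz.le hc
      linarith
    linarith
  · intro l _
    have h1 : w l = tW w i0 l - (bW w i0 l * z) • e := by
      rw [tW, ← hed, ← hzd]
      abel
    have h2 : ‖w l‖ ^ 2 = ‖tW w i0 l - (bW w i0 l * z) • e‖ ^ 2 := by rw [← h1]
    rw [h2, ← real_inner_self_eq_norm_sq, inner_sub_left, inner_sub_right, inner_sub_right,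
      real_inner_self_eq_norm_sq (tW w i0 l), real_inner_smul_left, real_inner_smul_right,
      real_inner_smul_left, real_inner_smul_right, hee, real_inner_comm, hte l]
    ring
  · intro l m hl hm hlm
    have h1 : ⟪tW w i0 l, tW w i0 m⟫ = ⟪w l, w m⟫ - bW w i0 l * bW w i0 m * z ^ 2 := by
      have h2 : bW w i0 l * bW w i0 m * z ^ 2 = ⟪w l, e⟫ * ⟪w m, e⟫ := by
        have h3 := hbz l
        have h4 := hbz m
        calc bW w i0 l * bW w i0 m * z ^ 2 = (bW w i0 l * z) * (bW w i0 m * z) := by ring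
          _ = ⟪w l, e⟫ * ⟪w m, e⟫ := by rw [h3, h4]; ring
      have c2 : ⟪e, w m⟫ = ⟪w m, e⟫ := real_inner_comm _ _
      rw [h2, ht l, ht m, inner_add_left, inner_add_right, inner_add_right, real_inner_smul_left,
        real_inner_smul_right, real_inner_smul_left, real_inner_smul_right, hee]
      simp only [c2]
      ring
    have hbl : 0 < bW w i0 l := by
      rw [hb]
      apply div_pos _ hz
      have h1 := hobt l i0 hl
      rw [hwe, real_inner_smul_right] at h1
      have h2 : ⟪w l, e⟫ < 0 := by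
        by_contra hc
        push Not at hc
        have := mul_nonneg hz.le hc
        linarith
      linarith
    have hbm : 0 < bW w i0 m := by
      rw [hb]
      apply div_pos _ hz
      have h1 := hobt m i0 hm
      rw [hwe, real_inner_smul_right] at h1
      have h2 : ⟪w m, e⟫ < 0 := by
        by_contra hc
        push Not at hc
        have := mul_nonneg hz.le hc
        linarith
      linarith
    rw [h1]
    have h3 := hobt l m hlm
    have h4 : 0 ≤ bW w i0 l * bW w i0 m * z ^ 2 := by positivity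
    linarith

/-- Module S, part one. -/
theorem setupVertex_holds [Nonempty ι] [Nontrivial ι] : SetupVertex E ι := by
  intro w i0 hfix hobt
  have hz : 0 < ‖w i0‖ := by
    rw [norm_pos_iff]
    intro h0
    obtain ⟨l, hl⟩ := exists_ne i0
    have := hobt l i0 hl
    rw [h0, inner_zero_right] at this
    exact lt_irrefl _ this
  exact ⟨hz, vertex_facts hfix hobt hz⟩

/-- Module S, part two. -/
theorem setupFlux_holds [Nonempty ι] : SetupFlux E ι := by
  classical
  intro w i0 g hfix hobt hg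
  have hne' : Nonempty {l // l ≠ i0} := by
    obtain ⟨l, -⟩ := hg 0
    exact ⟨l⟩
  have hz : 0 < ‖w i0‖ := by
    rw [norm_pos_iff]
    intro h0
    obtain ⟨l⟩ := hne'
    have := hobt l.1 i0 l.2
    rw [h0, inner_zero_right] at this
    exact lt_irrefl _ this
  obtain ⟨he, hbpos, hsumb, hte, hsumt, -, htt⟩ := vertex_facts hfix hobt hz
  set z : ℝ := ‖w i0‖ with hzd
  set e : E := eDir w i0 with hed
  have hee : ⟪e, e⟫ = 1 := by
    rw [real_inner_self_eq_norm_sq, he]
    norm_num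
  have hwe : w i0 = z • e := by
    rw [hed, eDir, smul_smul, ← hzd, mul_inv_cancel₀ hz.ne', one_smul]
  have h1 : ∀ i, ⟪e, tauL w i0 g i⟫ = 0 := by
    intro i
    rw [tauL, inner_sum]
    exact Finset.sum_eq_zero fun l _ => hte l.1 l.2
  have h2 : ∑ i, tauL w i0 g i = 0 := by
    simp only [tauL]
    rw [Finset.sum_fiberwise]
    exact hsumt
  have h3 : ∀ i j, i ≠ j → ⟪tauL w i0 g i, tauL w i0 g j⟫ < 0 := by
    intro i j hij
    simp only [tauL]
    rw [sum_inner]
    obtain ⟨li, hli⟩ := hg i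
    obtain ⟨lj, hlj⟩ := hg j
    apply Finset.sum_neg
    · intro a ha
      rw [inner_sum]
      apply Finset.sum_neg
      · intro b hb
        have ha' : g a = i := (Finset.mem_filter.1 ha).2
        have hb' : g b = j := (Finset.mem_filter.1 hb).2
        apply htt a.1 b.1 a.2 b.2
        intro hab
        have : a = b := Subtype.ext hab
        rw [this, hb'] at ha'
        exact hij ha'.symm
      · exact ⟨lj, Finset.mem_filter.2 ⟨Finset.mem_univ _, hlj⟩⟩
    · exact ⟨li, Finset.mem_filter.2 ⟨Finset.mem_univ _, hli⟩⟩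
  have hHpos : ∀ l : {l // l ≠ i0}, 0 ≤ 1 + bW w i0 l.1 := fun l => by
    have := hbpos l.1 l.2
    linarith
  have h4 : ∀ i, 0 ≤ HL w i0 g i := by
    intro i
    rw [HL]
    exact Finset.sum_nonneg fun l _ => hHpos l
  have hcard1 : 1 ≤ Fintype.card ι := Fintype.card_pos_iff.2 ⟨i0⟩
  have h5 : ∑ i, HL w i0 g i = (Fintype.card ι : ℝ) := by
    simp only [HL]
    rw [Finset.sum_fiberwise, Finset.sum_add_distrib, hsumb]
    simp only [Finset.sum_const, Finset.card_univ, nsmul_eq_mul, mul_one]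
    rw [Fintype.card_subtype_compl]
    simp only [Fintype.card_unique]
    push_cast [Nat.cast_sub hcard1]
    ring
  refine ⟨h1, h2, h3, h4, h5, ?_⟩
  set C : Set E := Cset e (tauL w i0 g) (HL w i0 g) z with hC
  have hmC : MeasurableSet C := measurableSet_Cset' _ _ _ _
  have hK : (0 : ℝ) < Fintype.card ι := by
    exact_mod_cast hcard1
  have hnonneg : ∀ x ∈ C, 0 ≤ ⟪e, x⟫ := by
    intro x hx
    have h6 : ∑ i, ⟪tauL w i0 g i, x⟫ = 0 := by
      rw [← sum_inner, h2, inner_zero_left]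
    have h7 : ∑ i, ⟪tauL w i0 g i, x⟫ ≤ ∑ i, HL w i0 g i * z * ⟪e, x⟫ :=
      Finset.sum_le_sum fun i _ => hx i
    have h8 : ∑ i, HL w i0 g i * z * ⟪e, x⟫ = (Fintype.card ι : ℝ) * z * ⟪e, x⟫ := by
      rw [← h5, Finset.sum_mul, Finset.sum_mul]
    rw [h6, h8] at h7
    by_contra hc
    push Not at hc
    have h9 : 0 < (Fintype.card ι : ℝ) * z := mul_pos hK hz
    have h10 := mul_neg_of_pos_of_neg h9 hc
    linarith
  have hsub : vcell w i0 ⊆ C := by
    intro x hx i
    have h6 : ⟪w i0, x⟫ = z * ⟪e, x⟫ := by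
      rw [hwe, real_inner_smul_left]
    simp only [tauL, HL]
    rw [sum_inner, Finset.sum_mul, Finset.sum_mul]
    apply Finset.sum_le_sum
    intro l _
    have h7 : ⟪tW w i0 l.1, x⟫ = ⟪w l.1, x⟫ + bW w i0 l.1 * z * ⟪e, x⟫ := by
      rw [tW, ← hed, inner_add_left, real_inner_smul_left]
    have h8 := hx.1 l.1
    rw [h7, h6] at *
    nlinarith
  have hval : z = ∫ x in vcell w i0, ⟪e, x⟫ ∂(stdGaussian E) := by
    rw [← inner_mom, hfix, hwe, real_inner_smul_right, hee]
    ring
  rw [hval]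
  exact setIntegral_mono_set (integrable_inner_std e).integrableOn
    ((ae_restrict_iff' hmC).2 (Eventually.of_forall hnonneg))
    (Eventually.of_forall hsub)

end Vale.Agent.P226h4
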