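import Vale.Agent.P226h4.Defs

/-!
# Interface statements of the flux route, as propositions.

Each module proves one of these `Prop`s (`theorem T_bound_holds : ...` etc).
-/

open MeasureTheory ProbabilityTheory Real Set Filter Topology
open scoped RealInnerProductSpace ENNReal NNReal

namespace Vale.Agent.P226h4

open Vale.Agent.P226h14

variable (E : Type*) [NormedAddCommGroup E] [InnerProductSpace ℝ E] [FiniteDimensional ℝ E]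
  [MeasurableSpace E] [BorelSpace E]

/-- Module T. The triangle bound: index `0` is the lump, indices `1,2,3` the triangle. Proof sketch:
`ξ = ⟪τ 0 / ‖τ 0‖, x⟫`, project `τ 1, τ 2, τ 3` off `τ 0`, Gram-Schmidt gives an orthonormal pair `f₁, f₂`
orthogonal to `e` and `τ 0`; slice twice along `f₁, f₂` with `integral_slice`; on each slice use the one
dimensional density bound `ph ≤ ph 0` twice: the section in `(g₁, g₂)` is a triangle of area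
`(Σ h)² / (2 √Γ)`, `Γ = |τ₁'|²|τ₂'|²-⟪τ₁',τ₂'⟫² ≥ c₁₂c₁₃+c₁₂c₂₃+c₁₃c₂₃`, `Σ h = s (A r + B ξ)`. -/
def TBound : Prop :=
  ∀ (e : E) (τ : Fin 4 → E) (H : Fin 4 → ℝ) (s : ℝ), ‖e‖ = 1 → (∀ i, ⟪e, τ i⟫ = 0) →
    ∑ i, τ i = 0 → (∀ i j, i ≠ j → ⟪τ i, τ j⟫ < 0) → (∀ i, 0 ≤ H i) → 0 < s →
    (∫ x in Cset e τ H s, ⟪e, x⟫ ∂(stdGaussian E)) *
        (4 * π * √(⟪τ 1, τ 2⟫ * ⟪τ 1, τ 3⟫ + ⟪τ 1, τ 2⟫ * ⟪τ 2, τ 3⟫ + ⟪τ 1, τ 3⟫ * ⟪τ 2, τ 3⟫)) ≤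
      s ^ 2 * Jhat (H 1 + H 2 + H 3) (‖τ 0‖ / s) (H 0)

/-- Module P. The parallelogram bound for the pairing `{0,1}, {2,3}`. Proof sketch: `T = τ 0 + τ 1`,
`u = (τ 0 - τ 1)/2`, `v = (τ 2 - τ 3)/2`, `ξ = ⟪T/‖T‖, x⟫`, `Pu, Pv` the projections off `T`, Gram-Schmidt
`f₁, f₂`; the section in `(g₁, g₂)` is a parallelogram of area `L₁ L₂ / Δ`, `L₁ + L₂ = (Σ H) s r`,
`L₁ L₂ ≤ ((Σ H) s r)² / 4`, `Δ² ≥ c₀₁ c₂₃`; then `E[r₊³] = 2 ph 0`. -/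
def PBound : Prop :=
  ∀ (e : E) (τ : Fin 4 → E) (H : Fin 4 → ℝ) (s : ℝ), ‖e‖ = 1 → (∀ i, ⟪e, τ i⟫ = 0) →
    ∑ i, τ i = 0 → (∀ i j, i ≠ j → ⟪τ i, τ j⟫ < 0) → (∀ i, 0 ≤ H i) → 0 < s →
    (∫ x in Cset e τ H s, ⟪e, x⟫ ∂(stdGaussian E)) * (4 * π * √(⟪τ 0, τ 1⟫ * ⟪τ 2, τ 3⟫)) ≤
      (∑ i, H i) ^ 2 * ph 0 * s ^ 2

end Vale.Agent.P226h4

namespace Vale.Agent.P226h4

open Vale.Agent.P226h14

/-- Module J1. Integrate `ξ` first with density at most `ph 0`: the inner integral is at most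
`ph 0 * ((A + C) r)³ / (3 B)`, and `E[r₊⁴] = 3/2`. -/
def JBoundV : Prop :=
  ∀ A B C : ℝ, 0 ≤ A → 0 ≤ C → 0 < B → Jhat A B C * B ≤ ph 0 * (A + C) ^ 3 / 2

/-- Module J2. Exact evaluation: with `ξ = r w`, `Jhat A B C = (3 √(π/2) / (2 π)) * ∫_{-A/B}^{C/B} (A + B w)² (1 + w²)^(-5/2) dw`
and the closed form `H = A²(F(s_C)+F(s_A)) - (2AB/3)(c_C³ - c_A³) + (B²/3)(s_C³+s_A³)`, where `F(s) = s - s³/3`,
`s_C = C/√(B²+C²)`, `c_C = B/√(B²+C²)`, `s_A = A/√(A²+B²)`, `c_A = B/√(A²+B²)`; the maximum is at `a = 0, B = 1`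
with value `11.73`. -/
def JBoundExact : Prop :=
  ∀ a B : ℝ, 0 ≤ a → a ≤ 1 → 0 < B → 1 - a ^ 2 ≤ B ^ 2 → Jhat (4 - a) B (1 + a) ≤ 11.8

end Vale.Agent.P226h4

namespace Vale.Agent.P226h4

open Vale.Agent.P226h14

variable (E : Type*) [NormedAddCommGroup E] [InnerProductSpace ℝ E] [FiniteDimensional ℝ E]
  [MeasurableSpace E] [BorelSpace E]

variable (ι : Type*) [Fintype ι] [LinearOrder ι] [Nonempty ι]

/-- Module S, part one: elementary facts at an obtuse fixed point, for the vertices. -/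
def SetupVertex : Prop :=
  ∀ (w : ι → E) (i0 : ι), (∀ i, mom (vcell w i) = w i) → (∀ i j, i ≠ j → ⟪w i, w j⟫ < 0) →
    0 < ‖w i0‖ ∧ ‖eDir w i0‖ = 1 ∧
    (∀ l, l ≠ i0 → 0 < bW w i0 l) ∧ (∑ l : {l // l ≠ i0}, bW w i0 l.1 = 1) ∧
    (∀ l, l ≠ i0 → ⟪eDir w i0, tW w i0 l⟫ = 0) ∧ (∑ l : {l // l ≠ i0}, tW w i0 l.1 = 0) ∧
    (∀ l, l ≠ i0 → ‖w l‖ ^ 2 = (bW w i0 l) ^ 2 * ‖w i0‖ ^ 2 + ‖tW w i0 l‖ ^ 2) ∧
    (∀ l m, l ≠ i0 → m ≠ i0 → l ≠ m → ⟪tW w i0 l, tW w i0 m⟫ < 0)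

/-- Module S, part two: the flux inequality and the facts for lumps. `g` assigns the vertices other than `i0`
to four nonempty lumps. The flux: `‖w i0‖ = ⟪e, mom (vcell w i0)⟫ = ∫ x in vcell w i0, ⟪e, x⟫` (`inner_mom`),
the cell is contained in the cone and `⟪e, x⟫ ≥ 0` on the cone (sum the four inequalities). -/
def SetupFlux : Prop :=
  ∀ (w : ι → E) (i0 : ι) (g : {l // l ≠ i0} → Fin 4), (∀ i, mom (vcell w i) = w i) →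
    (∀ i j, i ≠ j → ⟪w i, w j⟫ < 0) → Function.Surjective g →
    (∀ i, ⟪eDir w i0, tauL w i0 g i⟫ = 0) ∧ (∑ i, tauL w i0 g i = 0) ∧
    (∀ i j, i ≠ j → ⟪tauL w i0 g i, tauL w i0 g j⟫ < 0) ∧ (∀ i, 0 ≤ HL w i0 g i) ∧
    (∑ i, HL w i0 g i = (Fintype.card ι : ℝ)) ∧
    ‖w i0‖ ≤ ∫ x in Cset (eDir w i0) (tauL w i0 g) (HL w i0 g) ‖w i0‖, ⟪eDir w i0, x⟫ ∂(stdGaussian E)

end Vale.Agent.P226h4
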