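import Vale.Agent.P226h4.JV
import Vale.Agent.P226h14.Slice

/-! Modules T and P of the flux route: coordinates, areas of sections. -/

open MeasureTheory ProbabilityTheory Real Set Filter Topology
open scoped RealInnerProductSpace ENNReal NNReal

namespace Vale.Agent.P226h4

open Vale.Agent.P226h14

section Law

variable {E : Type*} [NormedAddCommGroup E] [InnerProductSpace ℝ E]

lemma inner_self_slice {n : E} (hn : ‖n‖ = 1) (x : E) (b : ℝ) : ⟪n, slice n (x, b)⟫ = b := by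
  rw [inner_slice, real_inner_self_eq_norm_sq, hn]
  ring

lemma inner_orth_slice {u n : E} (h : ⟪u, n⟫ = 0) (x : E) (b : ℝ) :
    ⟪u, slice n (x, b)⟫ = ⟪u, x⟫ := by
  rw [inner_slice, h]
  ring

variable [FiniteDimensional ℝ E] [MeasurableSpace E] [BorelSpace E]

lemma coord_peel {n : E} (hn : ‖n‖ = 1) {K : E → ℝ → ℝ≥0∞}
    (hK : Measurable fun p : E × ℝ => K p.1 p.2)
    (hinv : ∀ x b c, K (slice n (x, b)) c = K x c) :
    ∫⁻ x, K x ⟪n, x⟫ ∂(stdGaussian E) =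
      ∫⁻ x, ∫⁻ b, K x b ∂(gaussianReal 0 1) ∂(stdGaussian E) := by
  have hf : Measurable fun x => K x ⟪n, x⟫ := by
    have : Measurable fun x : E => (x, ⟪n, x⟫) := measurable_id.prodMk (by fun_prop)
    exact hK.comp this
  rw [lintegral_slice n hn hf]
  refine lintegral_congr fun x => lintegral_congr fun b => ?_
  rw [inner_self_slice hn, hinv]

/-- The joint law of four orthonormal coordinates. -/
theorem law4 {e a f1 f2 : E} (he : ‖e‖ = 1) (ha : ‖a‖ = 1) (h1 : ‖f1‖ = 1) (h2 : ‖f2‖ = 1)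
    (hea : ⟪e, a⟫ = 0) (he1 : ⟪e, f1⟫ = 0) (he2 : ⟪e, f2⟫ = 0) (ha1 : ⟪a, f1⟫ = 0)
    (ha2 : ⟪a, f2⟫ = 0) (h12 : ⟪f1, f2⟫ = 0) {G : ℝ → ℝ → ℝ → ℝ → ℝ≥0∞}
    (hG : Measurable fun p : ℝ × ℝ × ℝ × ℝ => G p.1 p.2.1 p.2.2.1 p.2.2.2) :
    ∫⁻ x, G ⟪e, x⟫ ⟪a, x⟫ ⟪f1, x⟫ ⟪f2, x⟫ ∂(stdGaussian E) =
      ∫⁻ r, ∫⁻ ξ, ∫⁻ g1, ∫⁻ g2, G r ξ g1 g2 ∂(gaussianReal 0 1) ∂(gaussianReal 0 1)
        ∂(gaussianReal 0 1) ∂(gaussianReal 0 1) := by
  have hiE : Measurable fun x : E => ⟪e, x⟫ := by fun_prop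
  have hiA : Measurable fun x : E => ⟪a, x⟫ := by fun_prop
  have hiF : Measurable fun x : E => ⟪f1, x⟫ := by fun_prop
  have hG3 : Measurable fun p : ℝ × ℝ × ℝ =>
      ∫⁻ g2, G p.1 p.2.1 p.2.2 g2 ∂(gaussianReal 0 1) := by
    have hm : Measurable fun q : (ℝ × ℝ × ℝ) × ℝ => ((q.1.1, q.1.2.1, q.1.2.2, q.2) : ℝ × ℝ × ℝ × ℝ) := by
      fun_prop
    have : Measurable fun q : (ℝ × ℝ × ℝ) × ℝ => G q.1.1 q.1.2.1 q.1.2.2 q.2 :=
      hG.comp hm
    exact this.lintegral_prod_right'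
  have hG2 : Measurable fun p : ℝ × ℝ =>
      ∫⁻ g1, ∫⁻ g2, G p.1 p.2 g1 g2 ∂(gaussianReal 0 1) ∂(gaussianReal 0 1) := by
    have hm : Measurable fun q : (ℝ × ℝ) × ℝ => ((q.1.1, q.1.2, q.2) : ℝ × ℝ × ℝ) := by
      fun_prop
    have : Measurable fun q : (ℝ × ℝ) × ℝ =>
        ∫⁻ g2, G q.1.1 q.1.2 q.2 g2 ∂(gaussianReal 0 1) :=
      hG3.comp hm
    exact this.lintegral_prod_right'
  have hG1 : Measurable fun r : ℝ =>
      ∫⁻ ξ, ∫⁻ g1, ∫⁻ g2, G r ξ g1 g2 ∂(gaussianReal 0 1) ∂(gaussianReal 0 1)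
        ∂(gaussianReal 0 1) := by
    have : Measurable fun q : ℝ × ℝ =>
        ∫⁻ g1, ∫⁻ g2, G q.1 q.2 g1 g2 ∂(gaussianReal 0 1) ∂(gaussianReal 0 1) := hG2
    exact this.lintegral_prod_right'
  -- peel `f2`
  have hm2 : Measurable fun p : E × ℝ => ((⟪e, p.1⟫, ⟪a, p.1⟫, ⟪f1, p.1⟫, p.2) : ℝ × ℝ × ℝ × ℝ) := by
    fun_prop
  have hm1 : Measurable fun p : E × ℝ => ((⟪e, p.1⟫, ⟪a, p.1⟫, p.2) : ℝ × ℝ × ℝ) := by
    fun_prop
  have hm0 : Measurable fun p : E × ℝ => ((⟪e, p.1⟫, p.2) : ℝ × ℝ) := by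
    fun_prop
  have s2 := coord_peel h2 (K := fun x b => G ⟪e, x⟫ ⟪a, x⟫ ⟪f1, x⟫ b)
    (hG.comp hm2) (fun x b c => by
      simp only [inner_orth_slice he2, inner_orth_slice ha2, inner_orth_slice h12])
  -- peel `f1`
  have s1 := coord_peel h1 (K := fun x b => ∫⁻ g2, G ⟪e, x⟫ ⟪a, x⟫ b g2 ∂(gaussianReal 0 1))
    (hG3.comp hm1) (fun x b c => by
      simp only [inner_orth_slice he1, inner_orth_slice ha1])
  -- peel `a`
  have s0 := coord_peel ha (K := fun x b => ∫⁻ g1, ∫⁻ g2, G ⟪e, x⟫ b g1 g2 ∂(gaussianReal 0 1)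
      ∂(gaussianReal 0 1))
    (hG2.comp hm0) (fun x b c => by
      simp only [inner_orth_slice hea])
  -- peel `e`
  have sE := coord_peel he (K := fun _ b => ∫⁻ ξ, ∫⁻ g1, ∫⁻ g2, G b ξ g1 g2 ∂(gaussianReal 0 1)
      ∂(gaussianReal 0 1) ∂(gaussianReal 0 1))
    (hG1.comp measurable_snd) (fun x b c => rfl)
  rw [s2, s1, s0, sE]
  simp

end Law

section Areas

lemma ph_zero_sq : ph 0 ^ 2 = 1 / (2 * π) := by
  have h2 : (0 : ℝ) ≤ 2 * π := by positivity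
  have h3 : ph 0 = (√(2 * π))⁻¹ := by simp [ph]
  rw [h3, inv_pow, Real.sq_sqrt h2, one_div]

lemma lintegral_gauss_le {f : ℝ → ℝ≥0∞} (hf : Measurable f) :
    ∫⁻ x, f x ∂(gaussianReal 0 1) ≤ ENNReal.ofReal (ph 0) * ∫⁻ x, f x := by
  rw [gaussianReal_of_var_ne_zero 0 one_ne_zero,
    lintegral_withDensity_eq_lintegral_mul _ (measurable_gaussianPDF 0 1) hf,
    ← lintegral_const_mul _ hf]
  refine lintegral_mono fun x => ?_
  simp only [Pi.mul_apply]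
  refine mul_le_mul_left ?_ _
  rw [gaussianPDF_def]
  change ENNReal.ofReal (gaussianPDFReal 0 1 x) ≤ _
  rw [gaussianPDFReal_eq_ph]
  exact ENNReal.ofReal_le_ofReal (ph_le_ph_zero x)

lemma gauss_Icc_le (a b : ℝ) :
    gaussianReal 0 1 (Icc a b) ≤ ENNReal.ofReal (ph 0 * (b - a)) := by
  have h := lintegral_gauss_le (f := (Icc a b).indicator 1)
    (measurable_one.indicator measurableSet_Icc)
  rw [lintegral_indicator_one measurableSet_Icc, lintegral_indicator_one measurableSet_Icc,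
    Real.volume_Icc, ← ENNReal.ofReal_mul (ph_pos 0).le] at h
  exact h


lemma lintegral_ramp {a b c : ℝ} (hab : a ≤ b) (hc : 0 ≤ c) :
    ∫⁻ g in Icc a b, ENNReal.ofReal (c * (g - a)) = ENNReal.ofReal (c * (b - a) ^ 2 / 2) := by
  have hcont : Continuous fun g : ℝ => c * (g - a) := by fun_prop
  rw [← ofReal_integral_eq_lintegral_ofReal (hcont.integrableOn_Icc)]
  · congr 1
    rw [integral_Icc_eq_integral_Ioc, ← intervalIntegral.integral_of_le hab]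
    have hd : ∀ g ∈ uIcc a b, HasDerivAt (fun g => c * (g - a) ^ 2 / 2) (c * (g - a)) g := by
      intro g _
      have h1 : HasDerivAt (fun g : ℝ => g - a) 1 g := (hasDerivAt_id g).sub_const a
      have h2 := ((h1.pow 2).const_mul c).div_const 2
      refine h2.congr_deriv ?_
      simp
      ring
    rw [intervalIntegral.integral_eq_sub_of_hasDerivAt hd (hcont.intervalIntegrable _ _)]
    ring
  · filter_upwards [ae_restrict_mem measurableSet_Icc] with g hg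
    exact mul_nonneg hc (sub_nonneg.2 hg.1)

/-- the triangle of the section -/
def triS (p1 p q h1 h2 h3 : ℝ) : Set (ℝ × ℝ) :=
  {g | p1 * g.1 ≤ h1 ∧ q * g.1 + p * g.2 ≤ h2 ∧ -(p1 + q) * g.1 - p * g.2 ≤ h3}

lemma measurableSet_triS (p1 p q h1 h2 h3 : ℝ) : MeasurableSet (triS p1 p q h1 h2 h3) := by
  have m1 : MeasurableSet {g : ℝ × ℝ | p1 * g.1 ≤ h1} :=
    measurableSet_le (by fun_prop) measurable_const
  have m2 : MeasurableSet {g : ℝ × ℝ | q * g.1 + p * g.2 ≤ h2} :=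
    measurableSet_le (by fun_prop) measurable_const
  have m3 : MeasurableSet {g : ℝ × ℝ | -(p1 + q) * g.1 - p * g.2 ≤ h3} :=
    measurableSet_le (by fun_prop) measurable_const
  exact m1.inter (m2.inter m3)

lemma tri_area {p1 p : ℝ} (hp1 : 0 < p1) (hp : 0 < p) (q h1 h2 h3 : ℝ) :
    ∫⁻ g1, ∫⁻ g2, (triS p1 p q h1 h2 h3).indicator 1 (g1, g2) ∂(gaussianReal 0 1)
      ∂(gaussianReal 0 1) ≤ ENNReal.ofReal ((max (h1 + h2 + h3) 0) ^ 2 / (4 * π * p1 * p)) := by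
  set R : ℝ → ℝ≥0∞ := (Iic (h1 / p1)).indicator fun g1 =>
    ENNReal.ofReal (ph 0 * ((h2 + h3 + p1 * g1) / p)) with hR
  have hRm : Measurable R := by
    refine Measurable.indicator ?_ measurableSet_Iic
    exact ENNReal.measurable_ofReal.comp (by fun_prop)
  have hinner : ∀ g1, ∫⁻ g2, (triS p1 p q h1 h2 h3).indicator 1 (g1, g2) ∂(gaussianReal 0 1) ≤
      R g1 := by
    intro g1
    have hsec : (fun g2 => (triS p1 p q h1 h2 h3).indicator (1 : ℝ × ℝ → ℝ≥0∞) (g1, g2)) =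
        (Prod.mk g1 ⁻¹' triS p1 p q h1 h2 h3).indicator 1 := by
      funext g2
      rfl
    have hmsec : MeasurableSet (Prod.mk g1 ⁻¹' triS p1 p q h1 h2 h3) :=
      measurable_prodMk_left (measurableSet_triS _ _ _ _ _ _)
    simp only [hsec]
    rw [lintegral_indicator_one hmsec]
    by_cases hg : p1 * g1 ≤ h1
    · have hmem : g1 ∈ Iic (h1 / p1) := by
        simp only [mem_Iic]
        rw [le_div_iff₀ hp1]
        linarith
      rw [hR, Set.indicator_of_mem hmem]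
      have hsub : Prod.mk g1 ⁻¹' triS p1 p q h1 h2 h3 ⊆
          Icc ((-h3 - (p1 + q) * g1) / p) ((h2 - q * g1) / p) := by
        rintro g2 ⟨_, h5, h6⟩
        simp only at h5 h6
        constructor
        · rw [div_le_iff₀ hp]; linarith
        · rw [le_div_iff₀ hp]; linarith
      refine (measure_mono hsub).trans ((gauss_Icc_le _ _).trans (le_of_eq ?_))
      congr 2
      field_simp
      ring
    · have hempty : Prod.mk g1 ⁻¹' triS p1 p q h1 h2 h3 = ∅ := by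
        ext g2
        simp only [mem_preimage, mem_empty_iff_false, iff_false]
        exact fun hc => hg hc.1
      rw [hempty]
      simp
  calc _ ≤ ∫⁻ g1, R g1 ∂(gaussianReal 0 1) := lintegral_mono hinner
    _ ≤ ENNReal.ofReal (ph 0) * ∫⁻ g1, R g1 := lintegral_gauss_le hRm
    _ ≤ _ := by
      by_cases hS : h1 + h2 + h3 ≤ 0
      · have hzero : ∀ g1, R g1 = 0 := by
          intro g1
          rw [hR]
          by_cases hg : g1 ∈ Iic (h1 / p1)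
          · rw [Set.indicator_of_mem hg]
            have h7 : p1 * g1 ≤ h1 := by
              have := (le_div_iff₀ hp1).1 hg
              linarith
            have h8 : ph 0 * ((h2 + h3 + p1 * g1) / p) ≤ 0 :=
              mul_nonpos_of_nonneg_of_nonpos (ph_pos 0).le
                (div_nonpos_of_nonpos_of_nonneg (by linarith) hp.le)
            exact ENNReal.ofReal_of_nonpos h8
          · rw [Set.indicator_of_notMem hg]
        simp [hzero]
      · have hS' : 0 < h1 + h2 + h3 := not_le.1 hS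
        set a := -(h2 + h3) / p1 with ha
        set b := h1 / p1 with hb
        have hab : a ≤ b := by
          rw [ha, hb, div_le_div_iff_of_pos_right hp1]
          linarith
        set c := ph 0 * (p1 / p) with hc
        have hc0 : 0 ≤ c := mul_nonneg (ph_pos 0).le (by positivity)
        have hRe : R = (Icc a b).indicator fun g => ENNReal.ofReal (c * (g - a)) := by
          funext g
          have hlin : ph 0 * ((h2 + h3 + p1 * g) / p) = c * (g - a) := by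
            rw [hc, ha]
            field_simp
            ring
          rw [hR]
          by_cases hgb : g ≤ b
          · by_cases hga : a ≤ g
            · rw [Set.indicator_of_mem (show g ∈ Iic b from hgb),
                Set.indicator_of_mem (show g ∈ Icc a b from ⟨hga, hgb⟩), hlin]
            · rw [Set.indicator_of_mem (show g ∈ Iic b from hgb),
                Set.indicator_of_notMem (fun hh : g ∈ Icc a b => hga hh.1), hlin]
              exact ENNReal.ofReal_of_nonpos (mul_nonpos_of_nonneg_of_nonpos hc0 (by linarith [not_le.1 hga]))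
          · rw [Set.indicator_of_notMem (show g ∉ Iic b from hgb),
              Set.indicator_of_notMem (fun hh : g ∈ Icc a b => hgb hh.2)]
        rw [hRe, lintegral_indicator measurableSet_Icc, lintegral_ramp hab hc0,
          ← ENNReal.ofReal_mul (ph_pos 0).le]
        apply le_of_eq
        congr 1
        rw [max_eq_left hS'.le]
        have hba : b - a = (h1 + h2 + h3) / p1 := by
          rw [hb, ha]
          field_simp
          ring
        rw [hba, hc]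
        have hph := ph_zero_sq
        have : ph 0 * (ph 0 * (p1 / p) * ((h1 + h2 + h3) / p1) ^ 2 / 2) =
            ph 0 ^ 2 * ((h1 + h2 + h3) ^ 2 / (2 * p1 * p)) := by
          field_simp
        rw [this, hph]
        field_simp
        ring

/-- the parallelogram of the section -/
def parS (p1 p q lo1 hi1 lo2 hi2 : ℝ) : Set (ℝ × ℝ) :=
  {g | lo1 ≤ p1 * g.1 ∧ p1 * g.1 ≤ hi1 ∧ lo2 ≤ q * g.1 + p * g.2 ∧ q * g.1 + p * g.2 ≤ hi2}

lemma measurableSet_parS (p1 p q lo1 hi1 lo2 hi2 : ℝ) :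
    MeasurableSet (parS p1 p q lo1 hi1 lo2 hi2) := by
  have m1 : MeasurableSet {g : ℝ × ℝ | lo1 ≤ p1 * g.1} :=
    measurableSet_le measurable_const (by fun_prop)
  have m2 : MeasurableSet {g : ℝ × ℝ | p1 * g.1 ≤ hi1} :=
    measurableSet_le (by fun_prop) measurable_const
  have m3 : MeasurableSet {g : ℝ × ℝ | lo2 ≤ q * g.1 + p * g.2} :=
    measurableSet_le measurable_const (by fun_prop)
  have m4 : MeasurableSet {g : ℝ × ℝ | q * g.1 + p * g.2 ≤ hi2} :=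
    measurableSet_le (by fun_prop) measurable_const
  exact m1.inter (m2.inter (m3.inter m4))

lemma par_area {p1 p : ℝ} (hp1 : 0 < p1) (hp : 0 < p) (q lo1 hi1 lo2 hi2 : ℝ) :
    ∫⁻ g1, ∫⁻ g2, (parS p1 p q lo1 hi1 lo2 hi2).indicator 1 (g1, g2) ∂(gaussianReal 0 1)
      ∂(gaussianReal 0 1) ≤
      ENNReal.ofReal ((max (hi1 - lo1) 0) * (max (hi2 - lo2) 0) / (2 * π * p1 * p)) := by
  set V : ℝ≥0∞ := ENNReal.ofReal (ph 0 * ((hi2 - lo2) / p)) with hV
  have hinner : ∀ g1, ∫⁻ g2, (parS p1 p q lo1 hi1 lo2 hi2).indicator 1 (g1, g2)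
      ∂(gaussianReal 0 1) ≤ (Icc (lo1 / p1) (hi1 / p1)).indicator (fun _ => V) g1 := by
    intro g1
    have hsec : (fun g2 => (parS p1 p q lo1 hi1 lo2 hi2).indicator (1 : ℝ × ℝ → ℝ≥0∞) (g1, g2)) =
        (Prod.mk g1 ⁻¹' parS p1 p q lo1 hi1 lo2 hi2).indicator 1 := by
      funext g2
      rfl
    have hmsec : MeasurableSet (Prod.mk g1 ⁻¹' parS p1 p q lo1 hi1 lo2 hi2) :=
      measurable_prodMk_left (measurableSet_parS _ _ _ _ _ _ _)
    simp only [hsec]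
    rw [lintegral_indicator_one hmsec]
    by_cases hg : g1 ∈ Icc (lo1 / p1) (hi1 / p1)
    · rw [Set.indicator_of_mem hg]
      have hsub : Prod.mk g1 ⁻¹' parS p1 p q lo1 hi1 lo2 hi2 ⊆
          Icc ((lo2 - q * g1) / p) ((hi2 - q * g1) / p) := by
        rintro g2 ⟨_, _, h5, h6⟩
        simp only at h5 h6
        constructor
        · rw [div_le_iff₀ hp]; linarith
        · rw [le_div_iff₀ hp]; linarith
      refine (measure_mono hsub).trans ((gauss_Icc_le _ _).trans (le_of_eq ?_))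
      rw [hV]
      congr 2
      field_simp
      ring
    · have hempty : Prod.mk g1 ⁻¹' parS p1 p q lo1 hi1 lo2 hi2 = ∅ := by
        ext g2
        simp only [mem_preimage, mem_empty_iff_false, iff_false]
        rintro ⟨h5, h6, _⟩
        simp only at h5 h6
        apply hg
        constructor
        · rw [div_le_iff₀ hp1]; linarith
        · rw [le_div_iff₀ hp1]; linarith
      rw [hempty]
      simp
  calc _ ≤ ∫⁻ g1, (Icc (lo1 / p1) (hi1 / p1)).indicator (fun _ => V) g1 ∂(gaussianReal 0 1) :=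
        lintegral_mono hinner
    _ = V * gaussianReal 0 1 (Icc (lo1 / p1) (hi1 / p1)) := by
        rw [lintegral_indicator measurableSet_Icc, setLIntegral_const]
    _ ≤ V * ENNReal.ofReal (ph 0 * (hi1 / p1 - lo1 / p1)) := by
        gcongr
        exact gauss_Icc_le _ _
    _ ≤ _ := by
      have h1 : V ≤ ENNReal.ofReal (ph 0 * (max (hi2 - lo2) 0 / p)) := by
        rw [hV]
        apply ENNReal.ofReal_le_ofReal
        apply mul_le_mul_of_nonneg_left _ (ph_pos 0).le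
        exact div_le_div_of_nonneg_right (le_max_left _ _) hp.le
      have h2 : ENNReal.ofReal (ph 0 * (hi1 / p1 - lo1 / p1)) ≤
          ENNReal.ofReal (ph 0 * (max (hi1 - lo1) 0 / p1)) := by
        apply ENNReal.ofReal_le_ofReal
        apply mul_le_mul_of_nonneg_left _ (ph_pos 0).le
        rw [← sub_div]
        exact div_le_div_of_nonneg_right (le_max_left _ _) hp1.le
      refine (mul_le_mul' h1 h2).trans (le_of_eq ?_)
      rw [← ENNReal.ofReal_mul (mul_nonneg (ph_pos 0).le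
        (div_nonneg (le_max_right _ _) hp.le))]
      congr 1
      have : ph 0 * (max (hi2 - lo2) 0 / p) * (ph 0 * (max (hi1 - lo1) 0 / p1)) =
          ph 0 ^ 2 * (max (hi1 - lo1) 0 * max (hi2 - lo2) 0 / (p1 * p)) := by
        field_simp
      rw [this, ph_zero_sq]
      field_simp

end Areas

section FrameBound

variable {E : Type*} [NormedAddCommGroup E] [InnerProductSpace ℝ E] [FiniteDimensional ℝ E]
  [MeasurableSpace E] [BorelSpace E]

/-- The reduction of the integral of the first coordinate over a set described in four orthonormal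
coordinates to bounds on the sections. -/
theorem frame_bound {e a f1 f2 : E} (he : ‖e‖ = 1) (ha : ‖a‖ = 1) (h1 : ‖f1‖ = 1) (h2 : ‖f2‖ = 1)
    (hea : ⟪e, a⟫ = 0) (he1 : ⟪e, f1⟫ = 0) (he2 : ⟪e, f2⟫ = 0) (ha1 : ⟪a, f1⟫ = 0)
    (ha2 : ⟪a, f2⟫ = 0) (h12 : ⟪f1, f2⟫ = 0) {D : Set (ℝ × ℝ × ℝ × ℝ)} (hD : MeasurableSet D)
    {C : Set E} (hC : ∀ x, x ∈ C ↔ ((⟪e, x⟫, ⟪a, x⟫, ⟪f1, x⟫, ⟪f2, x⟫) : ℝ × ℝ × ℝ × ℝ) ∈ D)
    {Bd : ℝ → ℝ → ℝ} (hB0 : ∀ r ξ, 0 ≤ Bd r ξ)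
    (hBm : Measurable fun P : ℝ × ℝ => Bd P.1 P.2)
    (hBi : Integrable (fun P : ℝ × ℝ => Bd P.1 P.2) ((gaussianReal 0 1).prod (gaussianReal 0 1)))
    (hsec : ∀ r ξ, ∫⁻ g1, ∫⁻ g2, D.indicator (fun P => ENNReal.ofReal (max P.1 0)) (r, ξ, g1, g2)
      ∂(gaussianReal 0 1) ∂(gaussianReal 0 1) ≤ ENNReal.ofReal (Bd r ξ)) :
    ∫ x in C, ⟪e, x⟫ ∂(stdGaussian E) ≤
      ∫ P, Bd P.1 P.2 ∂((gaussianReal 0 1).prod (gaussianReal 0 1)) := by
  have hmap : Measurable fun x : E => ((⟪e, x⟫, ⟪a, x⟫, ⟪f1, x⟫, ⟪f2, x⟫) : ℝ × ℝ × ℝ × ℝ) := by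
    fun_prop
  have hCm : MeasurableSet C := by
    have : C = (fun x : E => ((⟪e, x⟫, ⟪a, x⟫, ⟪f1, x⟫, ⟪f2, x⟫) : ℝ × ℝ × ℝ × ℝ)) ⁻¹' D := by
      ext x
      exact hC x
    rw [this]
    exact hmap hD
  have hint : Integrable (fun x : E => ⟪e, x⟫) (stdGaussian E) := integrable_inner_std e
  have hmax : Integrable (fun x : E => max ⟪e, x⟫ 0) (stdGaussian E) := hint.sup (integrable_const _)
  have hstep1 : ∫ x in C, ⟪e, x⟫ ∂(stdGaussian E) ≤ ∫ x in C, max ⟪e, x⟫ 0 ∂(stdGaussian E) :=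
    setIntegral_mono hint.integrableOn hmax.integrableOn fun x => le_max_left _ _
  refine hstep1.trans ?_
  have hnonneg : 0 ≤ ∫ P, Bd P.1 P.2 ∂((gaussianReal 0 1).prod (gaussianReal 0 1)) :=
    integral_nonneg fun P => hB0 _ _
  rw [← ENNReal.ofReal_le_ofReal_iff hnonneg,
    ofReal_integral_eq_lintegral_ofReal hmax.integrableOn
      (Eventually.of_forall fun x => le_max_right _ _),
    ofReal_integral_eq_lintegral_ofReal hBi (Eventually.of_forall fun P => hB0 _ _)]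
  set G : ℝ → ℝ → ℝ → ℝ → ℝ≥0∞ := fun r ξ g1 g2 =>
    D.indicator (fun P => ENNReal.ofReal (max P.1 0)) (r, ξ, g1, g2) with hG
  have hGm : Measurable fun p : ℝ × ℝ × ℝ × ℝ => G p.1 p.2.1 p.2.2.1 p.2.2.2 := by
    have hm : Measurable fun P : ℝ × ℝ × ℝ × ℝ => ENNReal.ofReal (max P.1 0) :=
      ENNReal.measurable_ofReal.comp (measurable_fst.max measurable_const)
    exact hm.indicator hD
  have hl : ∫⁻ x in C, ENNReal.ofReal (max ⟪e, x⟫ 0) ∂(stdGaussian E) =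
      ∫⁻ x, G ⟪e, x⟫ ⟪a, x⟫ ⟪f1, x⟫ ⟪f2, x⟫ ∂(stdGaussian E) := by
    rw [← lintegral_indicator hCm]
    refine lintegral_congr fun x => ?_
    by_cases hx : x ∈ C
    · rw [Set.indicator_of_mem hx, hG]
      simp only
      rw [Set.indicator_of_mem ((hC x).1 hx)]
    · rw [Set.indicator_of_notMem hx, hG]
      simp only
      rw [Set.indicator_of_notMem (fun hh => hx ((hC x).2 hh))]
  have hP : ∫⁻ P : ℝ × ℝ, ENNReal.ofReal (Bd P.1 P.2) ∂((gaussianReal 0 1).prod (gaussianReal 0 1)) =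
      ∫⁻ r, ∫⁻ ξ, ENNReal.ofReal (Bd r ξ) ∂(gaussianReal 0 1) ∂(gaussianReal 0 1) :=
    lintegral_prod (fun P : ℝ × ℝ => ENNReal.ofReal (Bd P.1 P.2))
      (ENNReal.measurable_ofReal.comp hBm).aemeasurable
  rw [hl, law4 he ha h1 h2 hea he1 he2 ha1 ha2 h12 hGm, hP]
  refine lintegral_mono fun r => lintegral_mono fun ξ => ?_
  exact hsec r ξ

end FrameBound

section TFrame

variable {E : Type*} [NormedAddCommGroup E] [InnerProductSpace ℝ E] [FiniteDimensional ℝ E]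
  [MeasurableSpace E] [BorelSpace E]

/-- The four constraints of the triangle bound, in coordinates. -/
def DT (t s p1 p q d1 d2 d3 : ℝ) (H : Fin 4 → ℝ) : Set (ℝ × ℝ × ℝ × ℝ) :=
  {P | t * P.2.1 ≤ H 0 * s * P.1 ∧ d1 * P.2.1 + p1 * P.2.2.1 ≤ H 1 * s * P.1 ∧
    d2 * P.2.1 + q * P.2.2.1 + p * P.2.2.2 ≤ H 2 * s * P.1 ∧
    d3 * P.2.1 - (p1 + q) * P.2.2.1 - p * P.2.2.2 ≤ H 3 * s * P.1}

omit [NormedAddCommGroup E] [InnerProductSpace ℝ E] [FiniteDimensional ℝ E]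
  [MeasurableSpace E] [BorelSpace E] in
lemma measurableSet_DT (t s p1 p q d1 d2 d3 : ℝ) (H : Fin 4 → ℝ) :
    MeasurableSet (DT t s p1 p q d1 d2 d3 H) := by
  have m0 : MeasurableSet {P : ℝ × ℝ × ℝ × ℝ | t * P.2.1 ≤ H 0 * s * P.1} :=
    measurableSet_le (by fun_prop) (by fun_prop)
  have m1 : MeasurableSet {P : ℝ × ℝ × ℝ × ℝ | d1 * P.2.1 + p1 * P.2.2.1 ≤ H 1 * s * P.1} :=
    measurableSet_le (by fun_prop) (by fun_prop)
  have m2 : MeasurableSet {P : ℝ × ℝ × ℝ × ℝ |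
      d2 * P.2.1 + q * P.2.2.1 + p * P.2.2.2 ≤ H 2 * s * P.1} :=
    measurableSet_le (by fun_prop) (by fun_prop)
  have m3 : MeasurableSet {P : ℝ × ℝ × ℝ × ℝ |
      d3 * P.2.1 - (p1 + q) * P.2.2.1 - p * P.2.2.2 ≤ H 3 * s * P.1} :=
    measurableSet_le (by fun_prop) (by fun_prop)
  exact m0.inter (m1.inter (m2.inter m3))

omit [NormedAddCommGroup E] [InnerProductSpace ℝ E] [FiniteDimensional ℝ E]
  [MeasurableSpace E] [BorelSpace E] in
lemma DT_section {t s p1 p q d1 d2 d3 : ℝ} (hs : 0 < s) (hp1 : 0 < p1) (hp : 0 < p)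
    (hd : d1 + d2 + d3 = -t) (H : Fin 4 → ℝ) (r ξ : ℝ) :
    ∫⁻ g1, ∫⁻ g2, (DT t s p1 p q d1 d2 d3 H).indicator (fun P => ENNReal.ofReal (max P.1 0))
      (r, ξ, g1, g2) ∂(gaussianReal 0 1) ∂(gaussianReal 0 1) ≤
    ENNReal.ofReal ((s ^ 2 / (4 * π * p1 * p)) * PhiJ (H 1 + H 2 + H 3) (t / s) (H 0) r ξ) := by
  by_cases h0 : t * ξ ≤ H 0 * s * r
  · set h1 := H 1 * s * r - d1 * ξ with hh1
    set h2 := H 2 * s * r - d2 * ξ with hh2
    set h3 := H 3 * s * r - d3 * ξ with hh3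
    have hpt : ∀ g1 g2, (DT t s p1 p q d1 d2 d3 H).indicator (fun P => ENNReal.ofReal (max P.1 0))
        (r, ξ, g1, g2) = ENNReal.ofReal (max r 0) * (triS p1 p q h1 h2 h3).indicator 1 (g1, g2) := by
      intro g1 g2
      by_cases hmem : (g1, g2) ∈ triS p1 p q h1 h2 h3
      · have hD : ((r, ξ, g1, g2) : ℝ × ℝ × ℝ × ℝ) ∈ DT t s p1 p q d1 d2 d3 H := by
          obtain ⟨a1, a2, a3⟩ := hmem
          simp only at a1 a2 a3
          refine ⟨h0, ?_, ?_, ?_⟩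
          · show d1 * ξ + p1 * g1 ≤ H 1 * s * r
            linarith
          · show d2 * ξ + q * g1 + p * g2 ≤ H 2 * s * r
            linarith
          · show d3 * ξ - (p1 + q) * g1 - p * g2 ≤ H 3 * s * r
            linarith
        rw [Set.indicator_of_mem hD, Set.indicator_of_mem hmem]
        simp
      · have hD : ((r, ξ, g1, g2) : ℝ × ℝ × ℝ × ℝ) ∉ DT t s p1 p q d1 d2 d3 H := by
          rintro ⟨_, a1, a2, a3⟩
          simp only at a1 a2 a3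
          apply hmem
          refine ⟨?_, ?_, ?_⟩
          · show p1 * g1 ≤ h1
            linarith
          · show q * g1 + p * g2 ≤ h2
            linarith
          · show -(p1 + q) * g1 - p * g2 ≤ h3
            linarith
        rw [Set.indicator_of_notMem hD, Set.indicator_of_notMem hmem]
        simp
    simp_rw [hpt]
    have hne : ENNReal.ofReal (max r 0) ≠ ∞ := ENNReal.ofReal_ne_top
    simp_rw [lintegral_const_mul' _ _ hne]
    refine (mul_le_mul_right (tri_area hp1 hp q h1 h2 h3) _).trans (le_of_eq ?_)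
    rw [← ENNReal.ofReal_mul (le_max_right _ _)]
    congr 1
    have hB : t / s * ξ ≤ H 0 * r := by
      rw [div_mul_eq_mul_div, div_le_iff₀ hs]
      linarith
    have hsum : h1 + h2 + h3 = s * ((H 1 + H 2 + H 3) * r + t / s * ξ) := by
      rw [hh1, hh2, hh3]
      have : d1 * ξ + d2 * ξ + d3 * ξ = -t * ξ := by rw [← add_mul, ← add_mul, hd]
      field_simp
      linarith
    have hmax : max (h1 + h2 + h3) 0 = s * max ((H 1 + H 2 + H 3) * r + t / s * ξ) 0 := by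
      rw [hsum, mul_max_of_nonneg _ _ hs.le, mul_zero]
    rw [hmax]
    simp only [PhiJ]
    rw [if_pos hB]
    field_simp
  · have hzero : ∀ g1 g2, (DT t s p1 p q d1 d2 d3 H).indicator
        (fun P => ENNReal.ofReal (max P.1 0)) (r, ξ, g1, g2) = 0 := by
      intro g1 g2
      apply Set.indicator_of_notMem
      rintro ⟨a0, _⟩
      exact h0 a0
    simp_rw [hzero]
    simp only [lintegral_zero]
    exact zero_le

/-- The triangle bound in an orthonormal frame. -/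
theorem T_frame {e a f1 f2 : E} (he : ‖e‖ = 1) (ha : ‖a‖ = 1) (h1 : ‖f1‖ = 1) (h2 : ‖f2‖ = 1)
    (hea : ⟪e, a⟫ = 0) (he1 : ⟪e, f1⟫ = 0) (he2 : ⟪e, f2⟫ = 0) (ha1 : ⟪a, f1⟫ = 0)
    (ha2 : ⟪a, f2⟫ = 0) (h12 : ⟪f1, f2⟫ = 0) {t s p1 p q d1 d2 d3 : ℝ} (_ht : 0 < t) (hs : 0 < s)
    (hp1 : 0 < p1) (hp : 0 < p) (hd : d1 + d2 + d3 = -t) {τ : Fin 4 → E}
    (hτ0 : τ 0 = t • a) (hτ1 : τ 1 = d1 • a + p1 • f1) (hτ2 : τ 2 = d2 • a + q • f1 + p • f2)
    (hτ3 : τ 3 = d3 • a - (p1 + q) • f1 - p • f2) (H : Fin 4 → ℝ) :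
    ∫ x in Cset e τ H s, ⟪e, x⟫ ∂(stdGaussian E) ≤
      (s ^ 2 / (4 * π * p1 * p)) * Jhat (H 1 + H 2 + H 3) (t / s) (H 0) := by
  have hin0 : ∀ x, ⟪τ 0, x⟫ = t * ⟪a, x⟫ := by
    intro x
    rw [hτ0, real_inner_smul_left]
  have hin1 : ∀ x, ⟪τ 1, x⟫ = d1 * ⟪a, x⟫ + p1 * ⟪f1, x⟫ := by
    intro x
    rw [hτ1, inner_add_left, real_inner_smul_left, real_inner_smul_left]
  have hin2 : ∀ x, ⟪τ 2, x⟫ = d2 * ⟪a, x⟫ + q * ⟪f1, x⟫ + p * ⟪f2, x⟫ := by
    intro x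
    rw [hτ2, inner_add_left, inner_add_left, real_inner_smul_left, real_inner_smul_left,
      real_inner_smul_left]
  have hin3 : ∀ x, ⟪τ 3, x⟫ = d3 * ⟪a, x⟫ - (p1 + q) * ⟪f1, x⟫ - p * ⟪f2, x⟫ := by
    intro x
    rw [hτ3, inner_sub_left, inner_sub_left, real_inner_smul_left, real_inner_smul_left,
      real_inner_smul_left]
  have hC : ∀ x, x ∈ Cset e τ H s ↔
      ((⟪e, x⟫, ⟪a, x⟫, ⟪f1, x⟫, ⟪f2, x⟫) : ℝ × ℝ × ℝ × ℝ) ∈ DT t s p1 p q d1 d2 d3 H := by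
    intro x
    constructor
    · intro h
      refine ⟨?_, ?_, ?_, ?_⟩
      · have := h 0
        rwa [hin0] at this
      · have := h 1
        rwa [hin1] at this
      · have := h 2
        rwa [hin2] at this
      · have := h 3
        rwa [hin3] at this
    · rintro ⟨h0, h1, h2, h3⟩ i
      fin_cases i
      · show ⟪τ 0, x⟫ ≤ H 0 * s * ⟪e, x⟫
        rw [hin0]; exact h0
      · show ⟪τ 1, x⟫ ≤ H 1 * s * ⟪e, x⟫
        rw [hin1]; exact h1
      · show ⟪τ 2, x⟫ ≤ H 2 * s * ⟪e, x⟫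
        rw [hin2]; exact h2
      · show ⟪τ 3, x⟫ ≤ H 3 * s * ⟪e, x⟫
        rw [hin3]; exact h3
  have hkey := frame_bound he ha h1 h2 hea he1 he2 ha1 ha2 h12 (measurableSet_DT t s p1 p q d1 d2 d3 H)
    hC (Bd := fun r ξ => (s ^ 2 / (4 * π * p1 * p)) * PhiJ (H 1 + H 2 + H 3) (t / s) (H 0) r ξ)
    (fun r ξ => mul_nonneg (by positivity) (PhiJ_nonneg _ _ _ _ _))
    ((measurable_PhiJ _ _ _).const_mul _) ((integrable_PhiJ _ _ _).const_mul _)
    (fun r ξ => DT_section hs hp1 hp hd H r ξ)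
  rw [integral_const_mul, ← Jhat_eq_prod] at hkey
  exact hkey

end TFrame

section Gram

variable {E : Type*} [NormedAddCommGroup E] [InnerProductSpace ℝ E]

lemma norm_sub_proj_sq (f b : E) (q : ℝ) (hf : ⟪f, f⟫ = 1) (hq : ⟪b, f⟫ = q) :
    ‖b - q • f‖ ^ 2 = ‖b‖ ^ 2 - q ^ 2 := by
  rw [← real_inner_self_eq_norm_sq, ← real_inner_self_eq_norm_sq, inner_sub_left, inner_sub_right,
    inner_sub_right, real_inner_smul_left, real_inner_smul_left, real_inner_smul_right,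
    real_inner_smul_right, hf, real_inner_comm b f, hq]
  ring

/-- Gram-Schmidt for a pair of vectors. -/
lemma frame2 (a b : E) (hΓ : 0 < ‖a‖ ^ 2 * ‖b‖ ^ 2 - ⟪a, b⟫ ^ 2) :
    ∃ (f1 f2 : E) (p1 p q : ℝ), 0 < p1 ∧ 0 < p ∧ ‖f1‖ = 1 ∧ ‖f2‖ = 1 ∧ ⟪f1, f2⟫ = 0 ∧
      a = p1 • f1 ∧ b = q • f1 + p • f2 ∧ (p1 * p) ^ 2 = ‖a‖ ^ 2 * ‖b‖ ^ 2 - ⟪a, b⟫ ^ 2 ∧
      ∀ w : E, ⟪w, a⟫ = 0 → ⟪w, b⟫ = 0 → ⟪w, f1⟫ = 0 ∧ ⟪w, f2⟫ = 0 := by
  have ha0 : 0 < ‖a‖ := by
    by_contra hc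
    have h0 : ‖a‖ = 0 := le_antisymm (not_lt.1 hc) (norm_nonneg a)
    have h1 : a = 0 := norm_eq_zero.1 h0
    rw [h1] at hΓ
    simp at hΓ
  set p1 := ‖a‖ with hp1
  set f1 := p1⁻¹ • a with hf1
  have hf1n : ‖f1‖ = 1 := by
    rw [hf1, norm_smul, norm_inv, Real.norm_eq_abs, abs_of_pos ha0]
    exact inv_mul_cancel₀ ha0.ne'
  have haf : a = p1 • f1 := by
    rw [hf1, smul_smul, mul_inv_cancel₀ ha0.ne', one_smul]
  set q := ⟪b, f1⟫ with hq
  set c := b - q • f1 with hc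
  have hf1f1 : ⟪f1, f1⟫ = 1 := by
    rw [real_inner_self_eq_norm_sq, hf1n]; norm_num
  have hf1c : ⟪f1, c⟫ = 0 := by
    rw [hc, inner_sub_right, real_inner_smul_right, hf1f1, real_inner_comm, ← hq]
    ring
  have hcn : ‖c‖ ^ 2 = ‖b‖ ^ 2 - q ^ 2 := norm_sub_proj_sq f1 b q hf1f1 hq.symm
  have hab : ⟪a, b⟫ = p1 * q := by
    rw [haf, real_inner_smul_left, real_inner_comm, ← hq]
  have hGam : ‖a‖ ^ 2 * ‖b‖ ^ 2 - ⟪a, b⟫ ^ 2 = p1 ^ 2 * ‖c‖ ^ 2 := by
    rw [hab, hcn]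
    ring
  have hc0 : 0 < ‖c‖ := by
    by_contra hh
    have h0 : ‖c‖ = 0 := le_antisymm (not_lt.1 hh) (norm_nonneg c)
    rw [hGam, h0] at hΓ
    simp at hΓ
  set p := ‖c‖ with hp
  set f2 := p⁻¹ • c with hf2
  have hf2n : ‖f2‖ = 1 := by
    rw [hf2, norm_smul, norm_inv, Real.norm_eq_abs, abs_of_pos hc0]
    exact inv_mul_cancel₀ hc0.ne'
  have hcf : c = p • f2 := by
    rw [hf2, smul_smul, mul_inv_cancel₀ hc0.ne', one_smul]
  refine ⟨f1, f2, p1, p, q, ha0, hc0, hf1n, hf2n, ?_, haf, ?_, ?_, ?_⟩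
  · rw [hf2, real_inner_smul_right, hf1c, mul_zero]
  · rw [← hcf, hc]; abel
  · rw [hGam]; ring
  · intro w hwa hwb
    have h1 : ⟪w, f1⟫ = 0 := by
      rw [hf1, real_inner_smul_right, hwa, mul_zero]
    refine ⟨h1, ?_⟩
    rw [hf2, real_inner_smul_right, hc, inner_sub_right, real_inner_smul_right, hwb, h1]
    ring

end Gram

section TMain

variable {E : Type*} [NormedAddCommGroup E] [InnerProductSpace ℝ E] [FiniteDimensional ℝ E]
  [MeasurableSpace E] [BorelSpace E]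

lemma Jhat_nonneg (A B C : ℝ) : 0 ≤ Jhat A B C :=
  integral_nonneg fun _ => integral_nonneg fun _ => PhiJ_nonneg _ _ _ _ _

variable (E) in
/-- Module T. -/
theorem TBound_holds : TBound E := by
  intro e τ H s he hτe hsum hneg hH hs
  have hsum4 : τ 0 + τ 1 + τ 2 + τ 3 = 0 := by
    simpa [Fin.sum_univ_four] using hsum
  have hτ00 : τ 0 ≠ 0 := by
    intro h0
    have := hneg 0 1 (by decide)
    rw [h0, inner_zero_left] at this
    exact lt_irrefl _ this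
  have ht : 0 < ‖τ 0‖ := norm_pos_iff.2 hτ00
  obtain ⟨t, htt⟩ : ∃ t, t = ‖τ 0‖ := ⟨_, rfl⟩
  rw [← htt] at ht ⊢
  obtain ⟨a, haa⟩ : ∃ a, a = t⁻¹ • τ 0 := ⟨_, rfl⟩
  have ha : ‖a‖ = 1 := by
    rw [haa, norm_smul, norm_inv, Real.norm_eq_abs, abs_of_pos ht, ← htt]
    exact inv_mul_cancel₀ ht.ne'
  have haa1 : ⟪a, a⟫ = 1 := by
    rw [real_inner_self_eq_norm_sq, ha]; norm_num
  have hτ0 : τ 0 = t • a := by
    rw [haa, smul_smul, mul_inv_cancel₀ ht.ne', one_smul]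
  have hea : ⟪e, a⟫ = 0 := by
    rw [haa, real_inner_smul_right, hτe 0, mul_zero]
  -- the coordinates along `a`
  obtain ⟨d1, hd1⟩ : ∃ d, d = ⟪τ 1, a⟫ := ⟨_, rfl⟩
  obtain ⟨d2, hd2⟩ : ∃ d, d = ⟪τ 2, a⟫ := ⟨_, rfl⟩
  obtain ⟨d3, hd3⟩ : ∃ d, d = ⟪τ 3, a⟫ := ⟨_, rfl⟩
  have hin : ∀ i, ⟪τ i, τ 0⟫ = t * ⟪τ i, a⟫ := by
    intro i
    rw [hτ0, real_inner_smul_right]
  have hneg' : ∀ i : Fin 4, i ≠ 0 → ⟪τ i, a⟫ < 0 := by
    intro i hi
    have h1 := hneg i 0 hi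
    rw [hin] at h1
    by_contra hc
    exact absurd h1 (not_lt.2 (mul_nonneg ht.le (not_lt.1 hc)))
  have hd1n : d1 < 0 := by rw [hd1]; exact hneg' 1 (by decide)
  have hd2n : d2 < 0 := by rw [hd2]; exact hneg' 2 (by decide)
  have hd3n : d3 < 0 := by rw [hd3]; exact hneg' 3 (by decide)
  have hd : d1 + d2 + d3 = -t := by
    have h1 : ⟪τ 0 + τ 1 + τ 2 + τ 3, a⟫ = 0 := by rw [hsum4, inner_zero_left]
    rw [inner_add_left, inner_add_left, inner_add_left, ← hd1, ← hd2, ← hd3, hτ0,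
      real_inner_smul_left, haa1] at h1
    linarith
  -- the rest
  obtain ⟨a1, ha1⟩ : ∃ v, v = τ 1 - d1 • a := ⟨_, rfl⟩
  obtain ⟨b1, hb1⟩ : ∃ v, v = τ 2 - d2 • a := ⟨_, rfl⟩
  have hc1 : ⟪τ 1, τ 0⟫ + ‖τ 1‖ ^ 2 + ⟪τ 1, τ 2⟫ + ⟪τ 1, τ 3⟫ = 0 := by
    have h1 : ⟪τ 1, τ 0 + τ 1 + τ 2 + τ 3⟫ = 0 := by rw [hsum4, inner_zero_right]
    rw [inner_add_right, inner_add_right, inner_add_right, real_inner_self_eq_norm_sq] at h1
    exact h1
  have hc2 : ⟪τ 2, τ 0⟫ + ⟪τ 2, τ 1⟫ + ‖τ 2‖ ^ 2 + ⟪τ 2, τ 3⟫ = 0 := by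
    have h1 : ⟪τ 2, τ 0 + τ 1 + τ 2 + τ 3⟫ = 0 := by rw [hsum4, inner_zero_right]
    rw [inner_add_right, inner_add_right, inner_add_right, real_inner_self_eq_norm_sq] at h1
    exact h1
  rw [hin, ← hd1] at hc1
  rw [hin, ← hd2, real_inner_comm (τ 1) (τ 2)] at hc2
  have hna1 : ‖a1‖ ^ 2 = ‖τ 1‖ ^ 2 - d1 ^ 2 := by
    rw [ha1]; exact norm_sub_proj_sq a (τ 1) d1 haa1 hd1.symm
  have hnb1 : ‖b1‖ ^ 2 = ‖τ 2‖ ^ 2 - d2 ^ 2 := by
    rw [hb1]; exact norm_sub_proj_sq a (τ 2) d2 haa1 hd2.symm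
  have hab1 : ⟪a1, b1⟫ = ⟪τ 1, τ 2⟫ - d1 * d2 := by
    rw [ha1, hb1, inner_sub_left, inner_sub_right, inner_sub_right, real_inner_smul_left,
      real_inner_smul_right, real_inner_smul_left, real_inner_smul_right, haa1,
      real_inner_comm (τ 2) a, ← hd1, ← hd2]
    ring
  -- the Gram determinant
  have h12 := hneg 1 2 (by decide)
  have h13 := hneg 1 3 (by decide)
  have h23 := hneg 2 3 (by decide)
  obtain ⟨c12, hc12⟩ : ∃ c, c = -⟪τ 1, τ 2⟫ := ⟨_, rfl⟩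
  obtain ⟨c13, hc13⟩ : ∃ c, c = -⟪τ 1, τ 3⟫ := ⟨_, rfl⟩
  obtain ⟨c23, hc23⟩ : ∃ c, c = -⟪τ 2, τ 3⟫ := ⟨_, rfl⟩
  have hc12p : 0 < c12 := by rw [hc12]; linarith
  have hc13p : 0 < c13 := by rw [hc13]; linarith
  have hc23p : 0 < c23 := by rw [hc23]; linarith
  have hx : 0 < d1 * d2 := mul_pos_of_neg_of_neg hd1n hd2n
  have hy : 0 < d1 * d3 := mul_pos_of_neg_of_neg hd1n hd3n
  have hz : 0 < d2 * d3 := mul_pos_of_neg_of_neg hd2n hd3n
  have hGam : ‖a1‖ ^ 2 * ‖b1‖ ^ 2 - ⟪a1, b1⟫ ^ 2 =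
      (c12 + d1 * d2) * (c13 + d1 * d3) + (c12 + d1 * d2) * (c23 + d2 * d3) +
        (c13 + d1 * d3) * (c23 + d2 * d3) := by
    have e1 : ‖a1‖ ^ 2 = (c12 + d1 * d2) + (c13 + d1 * d3) := by
      rw [hna1, hc12, hc13]
      have : t = -(d1 + d2 + d3) := by linarith
      rw [this] at hc1
      linarith [hc1]
    have e2 : ‖b1‖ ^ 2 = (c12 + d1 * d2) + (c23 + d2 * d3) := by
      rw [hnb1, hc12, hc23]
      have : t = -(d1 + d2 + d3) := by linarith
      rw [this] at hc2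
      linarith [hc2]
    have e3 : ⟪a1, b1⟫ = -(c12 + d1 * d2) := by
      rw [hab1, hc12]; ring
    rw [e1, e2, e3]
    ring
  have hE2 : c12 * c13 + c12 * c23 + c13 * c23 ≤ ‖a1‖ ^ 2 * ‖b1‖ ^ 2 - ⟪a1, b1⟫ ^ 2 := by
    rw [hGam]
    have s1 : c12 * c13 ≤ (c12 + d1 * d2) * (c13 + d1 * d3) :=
      mul_le_mul (by linarith) (by linarith) hc13p.le (by linarith)
    have s2 : c12 * c23 ≤ (c12 + d1 * d2) * (c23 + d2 * d3) :=
      mul_le_mul (by linarith) (by linarith) hc23p.le (by linarith)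
    have s3 : c13 * c23 ≤ (c13 + d1 * d3) * (c23 + d2 * d3) :=
      mul_le_mul (by linarith) (by linarith) hc23p.le (by linarith)
    linarith
  have hE2p : 0 < c12 * c13 + c12 * c23 + c13 * c23 := by positivity
  obtain ⟨f1, f2, p1, p, q, hp1, hp, hf1, hf2, hf12, ha1f, hb1f, hdet, hw⟩ :=
    frame2 a1 b1 (lt_of_lt_of_le hE2p hE2)
  -- orthogonality of the frame
  have hea1 : ⟪e, a1⟫ = 0 := by
    rw [ha1, inner_sub_right, hτe 1, real_inner_smul_right, hea]; ring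
  have heb1 : ⟪e, b1⟫ = 0 := by
    rw [hb1, inner_sub_right, hτe 2, real_inner_smul_right, hea]; ring
  have haa1' : ⟪a, a1⟫ = 0 := by
    rw [ha1, inner_sub_right, real_inner_comm, ← hd1, real_inner_smul_right, haa1]; ring
  have hab1' : ⟪a, b1⟫ = 0 := by
    rw [hb1, inner_sub_right, real_inner_comm, ← hd2, real_inner_smul_right, haa1]; ring
  obtain ⟨he1, he2⟩ := hw e hea1 heb1
  obtain ⟨hA1, hA2⟩ := hw a haa1' hab1'
  -- the frame form of the vectors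
  have hτ1 : τ 1 = d1 • a + p1 • f1 := by
    rw [← ha1f, ha1]; abel
  have hτ2 : τ 2 = d2 • a + q • f1 + p • f2 := by
    have : τ 2 = d2 • a + b1 := by rw [hb1]; abel
    rw [this, hb1f]; abel
  have hτ3 : τ 3 = d3 • a - (p1 + q) • f1 - p • f2 := by
    have h3 : τ 3 = -(τ 0 + τ 1 + τ 2) := by
      rw [eq_neg_iff_add_eq_zero, add_comm]; exact hsum4
    have hd3' : d3 = -t - d1 - d2 := by linarith
    rw [h3, hτ0, hτ1, hτ2, hd3']
    module
  have hkey := T_frame he ha hf1 hf2 hea he1 he2 hA1 hA2 hf12 ht hs hp1 hp hd hτ0 hτ1 hτ2 hτ3 H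
  -- conclusion
  have hprod : ⟪τ 1, τ 2⟫ * ⟪τ 1, τ 3⟫ + ⟪τ 1, τ 2⟫ * ⟪τ 2, τ 3⟫ + ⟪τ 1, τ 3⟫ * ⟪τ 2, τ 3⟫ =
      c12 * c13 + c12 * c23 + c13 * c23 := by
    rw [hc12, hc13, hc23]; ring
  rw [hprod]
  have hsq : √(c12 * c13 + c12 * c23 + c13 * c23) ≤ p1 * p := by
    rw [Real.sqrt_le_left (by positivity)]
    rw [hdet]
    exact hE2
  have hJ := Jhat_nonneg (H 1 + H 2 + H 3) (t / s) (H 0)
  have hpos : 0 < 4 * π * p1 * p := by positivity
  calc _ ≤ (s ^ 2 / (4 * π * p1 * p) * Jhat (H 1 + H 2 + H 3) (t / s) (H 0)) *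
        (4 * π * √(c12 * c13 + c12 * c23 + c13 * c23)) :=
        mul_le_mul_of_nonneg_right hkey (by positivity)
    _ ≤ (s ^ 2 / (4 * π * p1 * p) * Jhat (H 1 + H 2 + H 3) (t / s) (H 0)) *
        (4 * π * (p1 * p)) := by
        apply mul_le_mul_of_nonneg_left _ (by positivity)
        apply mul_le_mul_of_nonneg_left hsq (by positivity)
    _ = _ := by
        field_simp

end TMain

end Vale.Agent.P226h4
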